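import Vale.Agent.P204.Full.Common.Linear
import Vale.Agent.P204.Full.Interfaces

/-!
P204 scales: the fibre seminorm and small facts about fields and Sobolev sums.
-/

open scoped Manifold ContDiff Topology
open MeasureTheory Set

noncomputable section

namespace Vale.Agent.P204.Full

universe u

section

variable {X : Type u} [TopologicalSpace X] [ChartedSpace R4 X] [IsManifold 𝓘(ℝ, R4) ∞ X]
  {G : Geo X}

theorem Geo.invAt_of_inv {θ : X → Bil} (hi : G.Inv θ) (hs : Smooth2 θ) (x : X) : G.InvAt x (θ x) :=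
  ⟨hs.1 x, ContinuousLinearMap.ext fun v => ContinuousLinearMap.ext fun w => hi x v w⟩

theorem Geo.antiAt_of_anti {θ : X → Bil} (hi : G.Anti θ) (hs : Smooth2 θ) (x : X) :
    G.AntiAt x (θ x) :=
  ⟨hs.1 x, ContinuousLinearMap.ext fun v => ContinuousLinearMap.ext fun w => hi x v w⟩

variable (G)

/-- `norm_smul` for bilinear forms. -/
theorem norm_smul_bil (t : ℝ) (a : Bil) : ‖t • a‖ = |t| * ‖a‖ := by
  have h1 : ∀ (t : ℝ) (a : Bil), ‖t • a‖ ≤ |t| * ‖a‖ := fun t a => by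
    simpa using ContinuousLinearMap.opNorm_smul_le t a
  refine le_antisymm (h1 t a) ?_
  rcases eq_or_ne t 0 with ht | ht
  · rw [ht, abs_zero, zero_mul]
    exact norm_nonneg ((0 : ℝ) • a)
  · have := h1 t⁻¹ (t • a)
    rw [inv_smul_smul₀ ht, abs_inv] at this
    rwa [← le_inv_mul_iff₀ (abs_pos.2 ht)]

/-- `θ ↦ θ^{11}` as a linear map. -/
def Geo.p11L : (X → Bil) →ₗ[ℝ] (X → Bil) where
  toFun := G.p11
  map_add' := G.p11_add
  map_smul' := G.p11_smul

/-- The fibre seminorm. -/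
def Geo.nrmSemi (x : X) : Seminorm ℝ Bil :=
  Seminorm.of (G.nrmVal x)
    (fun a b => by
      simp only [Geo.nrmVal, Geo.nrm2, ← Finset.sum_add_distrib, ← mul_add]
      refine Finset.sum_le_sum fun i _ => mul_le_mul_of_nonneg_left ?_ ?_
      · exact norm_add_le (view2 (G.c i) (fun _ => a) (G.c i x)) (view2 (G.c i) (fun _ => b) (G.c i x))
      · exact div_nonneg (indicator_nonneg (fun _ _ => coreBump.nonneg) _)
          (Finset.sum_nonneg fun k _ => indicator_nonneg (fun _ _ => coreBump.nonneg) _))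
    (fun t a => by
      simp only [Geo.nrmVal, Geo.nrm2, Finset.mul_sum]
      refine Finset.sum_congr rfl fun i _ => ?_
      rw [show view2 (G.c i) (fun _ => t • a) (G.c i x) = t • view2 (G.c i) (fun _ => a) (G.c i x) from rfl,
        norm_smul_bil, mul_left_comm]
      rfl)

theorem Geo.nrmVal_nn (x : X) (a : Bil) : 0 ≤ G.nrmVal x a := apply_nonneg (G.nrmSemi x) a

theorem Geo.nrmVal_add (x : X) (a b : Bil) : G.nrmVal x (a + b) ≤ G.nrmVal x a + G.nrmVal x b :=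
  map_add_le_add (G.nrmSemi x) a b

theorem Geo.nrmVal_smul (x : X) (t : ℝ) (a : Bil) : G.nrmVal x (t • a) = |t| * G.nrmVal x a :=
  map_smul_eq_mul (G.nrmSemi x) t a

theorem Geo.nrmVal_sub (x : X) (a b : Bil) : G.nrmVal x (a - b) ≤ G.nrmVal x a + G.nrmVal x b := by
  have e : a - b = a + (-1 : ℝ) • b := by module
  rw [e]
  exact (G.nrmVal_add _ _ _).trans (by rw [G.nrmVal_smul]; simp)

theorem Geo.hn_nonneg (j : ℕ) (θ : X → Bil) : 0 ≤ G.hn j θ :=
  Finset.sum_nonneg fun _ _ => Real.sqrt_nonneg _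

theorem Geo.hsum_nonneg (j : ℕ) (θ : X → Bil) : 0 ≤ G.hsum j θ :=
  Finset.sum_nonneg fun _ _ => G.hn_nonneg _ _

theorem Geo.hsum_mono {i j : ℕ} (h : i ≤ j) (θ : X → Bil) : G.hsum i θ ≤ G.hsum j θ :=
  Finset.sum_le_sum_of_subset_of_nonneg (Finset.range_subset_range.2 (by omega))
    fun _ _ _ => G.hn_nonneg _ _

theorem Geo.sk_nonneg (k : ℕ) {s : ℝ} (hs : 0 ≤ s) (θ : X → Bil) : 0 ≤ G.sk k s θ :=
  Finset.sum_nonneg fun _ _ => mul_nonneg (pow_nonneg hs _) (G.hn_nonneg _ _)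

theorem Geo.hn_le_hsum {i j : ℕ} (h : i ≤ j) (θ : X → Bil) : G.hn i θ ≤ G.hsum j θ :=
  Finset.single_le_sum (fun l _ => G.hn_nonneg l θ) (Finset.mem_range.2 (by omega))

theorem Geo.hn_zero_le_sk (k : ℕ) {s : ℝ} (hs : 0 ≤ s) (θ : X → Bil) : G.hn 0 θ ≤ G.sk k s θ := by
  have := Finset.single_le_sum (f := fun l => s ^ l * G.hn l θ)
    (fun l _ => mul_nonneg (pow_nonneg hs _) (G.hn_nonneg l θ))
    (Finset.mem_range.2 (Nat.succ_pos k))
  simpa [Geo.sk] using this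

theorem Geo.hsum_le_sk (k : ℕ) {s : ℝ} (hs : 0 < s) (hs1 : s ≤ 1) (θ : X → Bil) :
    s ^ k * G.hsum k θ ≤ G.sk k s θ := by
  rw [Geo.hsum, Finset.mul_sum]
  refine Finset.sum_le_sum fun l hl => mul_le_mul_of_nonneg_right ?_ (G.hn_nonneg l θ)
  exact pow_le_pow_of_le_one hs.le hs1 (Nat.lt_succ_iff.1 (Finset.mem_range.1 hl))

end

section

variable {X : Type u} [TopologicalSpace X] [ChartedSpace R4 X] [IsManifold 𝓘(ℝ, R4) ∞ X]
  [MeasurableSpace X] {G : Geo X} (hB : BaseFacts G)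
include hB

theorem BaseFacts.nrm2_eq (θ : X → Bil) (x : X) : G.nrm2 θ x = G.nrmVal x (θ x) := by
  refine Finset.sum_congr rfl fun i _ => ?_
  rcases eq_or_ne (G.rho i x) 0 with h | h
  · simp [h]
  · simp only [view2, (G.c i).left_inv (hB.rho_supp i x h).1]

end

end Vale.Agent.P204.Full
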