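import Vale.Agent.P204.Full.Common.Avg

/-!
P204 scales: `near`, the density bound `nu`, averages at scale `r`, Cauchy–Schwarz for bounded functions.
-/

open scoped Manifold ContDiff Topology
open MeasureTheory Set

noncomputable section

namespace Vale.Agent.P204.Full

universe u

section CS

variable {Y : Type*} [MeasurableSpace Y]

/-- Bounded measurable functions. -/
structure BddMeas (f : Y → ℝ) : Prop where
  meas : Measurable f
  bdd : ∃ C : ℝ, ∀ x, |f x| ≤ C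

theorem BddMeas.add {f g : Y → ℝ} (hf : BddMeas f) (hg : BddMeas g) : BddMeas fun x => f x + g x := by
  obtain ⟨A, hA⟩ := hf.bdd; obtain ⟨B, hB⟩ := hg.bdd
  exact ⟨hf.meas.add hg.meas, A + B, fun x => (abs_add_le _ _).trans (add_le_add (hA x) (hB x))⟩

theorem BddMeas.mul {f g : Y → ℝ} (hf : BddMeas f) (hg : BddMeas g) : BddMeas fun x => f x * g x := by
  obtain ⟨A, hA⟩ := hf.bdd; obtain ⟨B, hB⟩ := hg.bdd
  exact ⟨hf.meas.mul hg.meas, A * B, fun x => by
    rw [abs_mul]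
    exact mul_le_mul (hA x) (hB x) (abs_nonneg _) ((abs_nonneg _).trans (hA x))⟩

theorem BddMeas.const_mul {f : Y → ℝ} (a : ℝ) (hf : BddMeas f) : BddMeas fun x => a * f x :=
  BddMeas.mul (f := fun _ => a) ⟨measurable_const, |a|, fun _ => le_rfl⟩ hf

theorem BddMeas.integrable {f : Y → ℝ} (hf : BddMeas f) (μ : Measure Y) [IsFiniteMeasure μ] :
    Integrable f μ := by
  obtain ⟨A, hA⟩ := hf.bdd
  exact (integrable_const A).mono' hf.meas.aestronglyMeasurable (Filter.Eventually.of_forall hA)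

/-- Cauchy–Schwarz. -/
theorem integral_mul_le_sqrt (μ : Measure Y) [IsFiniteMeasure μ] {f g : Y → ℝ} (hf : BddMeas f)
    (hg : BddMeas g) :
    ∫ x, f x * g x ∂μ ≤ Real.sqrt (∫ x, f x ^ 2 ∂μ) * Real.sqrt (∫ x, g x ^ 2 ∂μ) := by
  have hf2 : Integrable (fun x => f x ^ 2) μ := by simpa [sq] using (hf.mul hf).integrable μ
  have hg2 : Integrable (fun x => g x ^ 2) μ := by simpa [sq] using (hg.mul hg).integrable μ
  have hfg := (hf.mul hg).integrable μ
  have a0 : 0 ≤ ∫ x, f x ^ 2 ∂μ := integral_nonneg fun x => sq_nonneg _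
  have b0 : 0 ≤ ∫ x, g x ^ 2 ∂μ := integral_nonneg fun x => sq_nonneg _
  have key : ∀ t : ℝ, 0 < t →
      ∫ x, f x * g x ∂μ ≤ (t * (∫ x, f x ^ 2 ∂μ) + t⁻¹ * ∫ x, g x ^ 2 ∂μ) / 2 := by
    intro t ht
    rw [← integral_const_mul, ← integral_const_mul, ← integral_add (hf2.const_mul t) (hg2.const_mul t⁻¹),
      ← integral_div]
    refine integral_mono hfg (((hf2.const_mul t).add (hg2.const_mul t⁻¹)).div_const 2) fun x => ?_
    have h : 0 ≤ t * f x ^ 2 + t⁻¹ * g x ^ 2 - 2 * (f x * g x) := by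
      have e : t * f x ^ 2 + t⁻¹ * g x ^ 2 - 2 * (f x * g x) = t⁻¹ * (t * f x - g x) ^ 2 := by
        field_simp; ring
      rw [e]; positivity
    show f x * g x ≤ (t * f x ^ 2 + t⁻¹ * g x ^ 2) / 2
    linarith
  set A := ∫ x, f x ^ 2 ∂μ
  set B := ∫ x, g x ^ 2 ∂μ
  refine le_of_forall_pos_le_add fun ε hε => ?_
  set δ : ℝ := min 1 (ε / (Real.sqrt A + Real.sqrt B + 1)) with hδ
  have hδ0 : 0 < δ := by positivity
  have h := key ((Real.sqrt B + δ) / (Real.sqrt A + δ)) (by positivity)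
  have hA : A ≤ (Real.sqrt A + δ) * (Real.sqrt A + δ) := by
    nlinarith [Real.mul_self_sqrt a0, Real.sqrt_nonneg A]
  have hB : B ≤ (Real.sqrt B + δ) * (Real.sqrt B + δ) := by
    nlinarith [Real.mul_self_sqrt b0, Real.sqrt_nonneg B]
  have h1 : (Real.sqrt B + δ) / (Real.sqrt A + δ) * A ≤ (Real.sqrt A + δ) * (Real.sqrt B + δ) := by
    rw [div_mul_eq_mul_div, div_le_iff₀ (by positivity)]
    nlinarith [mul_le_mul_of_nonneg_left hA (by positivity : 0 ≤ Real.sqrt B + δ)]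
  have h2 : ((Real.sqrt B + δ) / (Real.sqrt A + δ))⁻¹ * B ≤ (Real.sqrt A + δ) * (Real.sqrt B + δ) := by
    rw [inv_div, div_mul_eq_mul_div, div_le_iff₀ (by positivity)]
    nlinarith [mul_le_mul_of_nonneg_left hB (by positivity : 0 ≤ Real.sqrt A + δ)]
  have h3 : δ * (Real.sqrt A + Real.sqrt B + 1) ≤ ε :=
    (le_div_iff₀ (by positivity)).1 (min_le_right _ _)
  have h4 : δ ≤ 1 := min_le_left _ _
  nlinarith [mul_le_mul_of_nonneg_left h4 hδ0.le]

end CS

section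

variable {X : Type u} [TopologicalSpace X] [T2Space X] [CompactSpace X] [ChartedSpace R4 X]
  [IsManifold 𝓘(ℝ, R4) ∞ X] [MeasurableSpace X] [BorelSpace X] {G : Geo X}

omit [T2Space X] [ChartedSpace R4 X] [IsManifold 𝓘(ℝ, R4) ∞ X] in
theorem continuous_bddMeas {f : X → ℝ} (hf : Continuous f) : BddMeas f := by
  obtain ⟨C, hC⟩ := (isCompact_range (continuous_abs.comp hf)).bddAbove
  exact ⟨hf.measurable, C, fun x => hC ⟨x, rfl⟩⟩

omit [T2Space X] [CompactSpace X] [BorelSpace X] in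
theorem Geo.nu_nonneg (μ : Measure X) (s : ℝ) : 0 ≤ G.nu μ s :=
  Real.sSup_nonneg (by rintro t ⟨x, r, -, -, rfl⟩; exact dens_nonneg r μ x)

omit [T2Space X] [CompactSpace X] [BorelSpace X] in
theorem Geo.dens_le_nu (μ : Measure X) [IsFiniteMeasure μ] {s r : ℝ} (hs : 0 < s) (h : s ≤ r)
    (h1 : r ≤ 1) (x : X) : G.dens μ r x ≤ G.nu μ s := by
  refine le_csSup ⟨(s ^ 2)⁻¹ * μ.real univ, ?_⟩ ⟨x, r, h, h1, rfl⟩
  rintro t ⟨y, r', hr', -, rfl⟩
  refine mul_le_mul (inv_anti₀ (by positivity) (pow_le_pow_left₀ hs.le hr' 2))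
    (measureReal_mono (subset_univ _)) measureReal_nonneg (by positivity)

omit [T2Space X] [CompactSpace X] [BorelSpace X] in
theorem Geo.nu_scale (μ : Measure X) [IsFiniteMeasure μ] {t s : ℝ} (ht : 0 < t) (hts : t ≤ s)
    (hs1 : s ≤ 1) : G.nu μ t ≤ (s / t) ^ 2 * G.nu μ s := by
  have hs : 0 < s := ht.trans_le hts
  have h1 : 1 ≤ (s / t) ^ 2 := one_le_pow₀ ((one_le_div ht).2 hts)
  refine Real.sSup_le ?_ (mul_nonneg (by positivity) (G.nu_nonneg μ s))
  rintro v ⟨x, r, hr, hr1, rfl⟩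
  rcases le_total s r with hsr | hrs
  · exact (G.dens_le_nu μ hs hsr hr1 x).trans (le_mul_of_one_le_left (G.nu_nonneg μ s) h1)
  · have hr0 : 0 < r := ht.trans_le hr
    calc G.dens μ r x ≤ (r ^ 2)⁻¹ * μ.real (G.near s x) :=
          mul_le_mul_of_nonneg_left (measureReal_mono (near_mono hrs x)) (by positivity)
      _ = (s / r) ^ 2 * G.dens μ s x := by rw [Geo.dens]; field_simp
      _ ≤ (s / t) ^ 2 * G.nu μ s :=
          mul_le_mul (pow_le_pow_left₀ (by positivity) (div_le_div_of_nonneg_left hs.le ht hr) 2)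
            (G.dens_le_nu μ hs le_rfl hs1 x) (dens_nonneg s μ x) (by positivity)

omit [T2Space X] [CompactSpace X] [BorelSpace X] in
theorem Geo.nu_anti (μ : Measure X) [IsFiniteMeasure μ] {t s : ℝ} (ht : 0 < t) (hts : t ≤ s) :
    G.nu μ s ≤ G.nu μ t := by
  refine Real.sSup_le ?_ (G.nu_nonneg μ t)
  rintro v ⟨x, r, hr, hr1, rfl⟩
  exact G.dens_le_nu μ ht (hts.trans hr) hr1 x

variable (hB : BaseFacts G)
include hB

theorem BaseFacts.bddMeas_mavg (μ : Measure X) [IsFiniteMeasure μ] (r : ℝ) :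
    BddMeas (G.mavg μ r) :=
  ⟨mavg_measurable hB r μ, (r ^ 4)⁻¹ * μ.real univ, fun x => by
    rw [abs_of_nonneg (mavg_nonneg r μ x)]
    exact mavg_le_univ r μ x⟩

theorem BaseFacts.bddMeas_avg {f : X → ℝ} (hf : BddMeas f) (r : ℝ) : BddMeas (G.avg r f) := by
  have := hB.vol_finite
  obtain ⟨A, hA⟩ := hf.bdd
  refine ⟨avg_measurable hB r hf.meas.stronglyMeasurable, |(r ^ 4)⁻¹| * (|A| * G.vol.real univ),
    fun x => ?_⟩
  rw [Geo.avg, abs_mul]
  refine mul_le_mul_of_nonneg_left ?_ (abs_nonneg _)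
  rw [← Real.norm_eq_abs]
  refine (norm_setIntegral_le_of_norm_le_const (f := f) (C := |A|) (measure_lt_top _ _)
    fun z _ => ?_).trans ?_
  · rw [Real.norm_eq_abs]; exact (hA z).trans (le_abs_self A)
  · exact mul_le_mul_of_nonneg_left (measureReal_mono (subset_univ _)) (abs_nonneg _)

/-- The square of the average of a measure. -/
theorem BaseFacts.mavg_sq : ∃ C : ℝ, 0 ≤ C ∧ ∀ (μ : Measure X) [IsFiniteMeasure μ], ∀ r : ℝ,
    0 < r → r ≤ 1 → ∫ z, G.mavg μ r z ^ 2 ∂G.vol ≤ C * μ.real univ * G.nu μ r / r ^ 2 := by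
  obtain ⟨C, hC⟩ := mavg_integral_le hB
  have hfin := hB.vol_finite
  refine ⟨max C 0, le_max_right _ _, fun μ _ r hr hr1 => ?_⟩
  have hm := hB.bddMeas_mavg μ r
  have h1 : ∫ z, G.mavg μ r z ∂G.vol ≤ max C 0 * μ.real univ :=
    (hC μ r hr hr1).trans (mul_le_mul_of_nonneg_right (le_max_left _ _) measureReal_nonneg)
  have hb : ∀ z, G.mavg μ r z ^ 2 ≤ G.nu μ r / r ^ 2 * G.mavg μ r z := fun z => by
    rw [sq]
    refine mul_le_mul_of_nonneg_right ?_ (mavg_nonneg r μ z)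
    rw [le_div_iff₀ (by positivity)]
    refine le_of_eq_of_le ?_ (G.dens_le_nu μ hr le_rfl hr1 z)
    rw [Geo.mavg, Geo.dens]; field_simp
  have hi2 : Integrable (fun z => G.mavg μ r z ^ 2) G.vol := by
    simpa [sq] using (hm.mul hm).integrable G.vol
  calc ∫ z, G.mavg μ r z ^ 2 ∂G.vol ≤ ∫ z, G.nu μ r / r ^ 2 * G.mavg μ r z ∂G.vol :=
        integral_mono hi2 ((hm.integrable _).const_mul _) hb
    _ ≤ G.nu μ r / r ^ 2 * (max C 0 * μ.real univ) := by
        rw [integral_const_mul]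
        exact mul_le_mul_of_nonneg_left h1 (div_nonneg (G.nu_nonneg μ r) (by positivity))
    _ = _ := by ring

end

end Vale.Agent.P204.Full
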