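import Vale.Agent.P204.Full.Scales.Iterate

/-!
P204 scales: the bootstrap.
-/

open scoped Manifold ContDiff Topology
open MeasureTheory Set

noncomputable section

namespace Vale.Agent.P204.Full

universe u

/-- The weight at scale `s` for the parameter `η`. -/
def scaleWeight (N : ℕ) (η s : ℝ) : ℝ := (min 1 (s / η)) ^ N

theorem scaleWeight_pos (N : ℕ) {η s : ℝ} (hη : 0 < η) (hs : 0 < s) : 0 < scaleWeight N η s :=
  pow_pos (lt_min one_pos (div_pos hs hη)) N

theorem scaleWeight_le_one (N : ℕ) {η s : ℝ} (hη : 0 < η) (hs : 0 < s) : scaleWeight N η s ≤ 1 :=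
  pow_le_one₀ (le_min zero_le_one (div_pos hs hη).le) (min_le_left _ _)

theorem scaleWeight_scale (N : ℕ) {η s t : ℝ} (hη : 0 < η) (ht : 0 < t) (hts : t ≤ s) :
    (t / s) ^ N * scaleWeight N η s ≤ scaleWeight N η t := by
  have hs := ht.trans_le hts
  rw [scaleWeight, scaleWeight, ← mul_pow]
  refine pow_le_pow_left₀ (mul_nonneg (by positivity) (le_min zero_le_one (div_pos hs hη).le))
    (le_min ?_ ?_) N
  · calc t / s * min 1 (s / η) ≤ 1 * 1 :=
          mul_le_mul ((div_le_one hs).2 hts) (min_le_left _ _) (le_min zero_le_one (div_pos hs hη).le)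
            zero_le_one
      _ = 1 := one_mul 1
  · calc t / s * min 1 (s / η) ≤ t / s * (s / η) :=
          mul_le_mul_of_nonneg_left (min_le_right _ _) (by positivity)
      _ = t / η := by field_simp

/-- The algebra of one round of the bootstrap. -/
theorem boot_arith {A v V G t wt : ℝ} (hA : 0 ≤ A) (hv : 0 ≤ v) (hvV : v ≤ V) (hG : 0 ≤ G)
    (ht : 0 ≤ t) (hwt : 0 < wt) (hwt1 : wt ≤ 1) :
    A * (Real.sqrt (v * (v + G * V / wt)) + t * (v + G * V / wt) + v) ≤
      A * (V / wt) * (Real.sqrt (1 + G) + t * (1 + G) + 1) := by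
  have hV : 0 ≤ V := hv.trans hvV
  have h1 : v + G * V / wt ≤ V / wt * (1 + G) := by
    have : v ≤ V / wt := hvV.trans (le_div_self hV hwt hwt1)
    calc v + G * V / wt ≤ V / wt + G * V / wt := by linarith
      _ = _ := by ring
  have h2 : Real.sqrt (v * (v + G * V / wt)) ≤ V / wt * Real.sqrt (1 + G) := by
    rw [Real.sqrt_le_iff]
    refine ⟨by positivity, ?_⟩
    rw [mul_pow, Real.sq_sqrt (by linarith)]
    calc v * (v + G * V / wt) ≤ V / wt * (V / wt * (1 + G)) :=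
          mul_le_mul (hvV.trans (le_div_self hV hwt hwt1)) h1 (by positivity) (by positivity)
      _ = _ := by ring
  have h3 : v ≤ V / wt := hvV.trans (le_div_self hV hwt hwt1)
  have h4 : t * (v + G * V / wt) ≤ t * (V / wt * (1 + G)) := mul_le_mul_of_nonneg_left h1 ht
  nlinarith [mul_le_mul_of_nonneg_left h2 hA, mul_le_mul_of_nonneg_left h3 hA,
    mul_le_mul_of_nonneg_left h4 hA]

theorem sqrt_absorb {A G : ℝ} (hG : 0 ≤ G) :
    A * Real.sqrt (1 + G) ≤ (1 + G) / 8 + 2 * A ^ 2 := by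
  have h := sq_nonneg (Real.sqrt (1 + G) / 4 - A)
  have e := Real.sq_sqrt (show (0:ℝ) ≤ 1 + G by linarith)
  nlinarith

variable {X : Type u} [TopologicalSpace X] [ChartedSpace R4 X] [IsManifold 𝓘(ℝ, R4) ∞ X]
  [MeasurableSpace X] {G : Geo X}

/-- The bound to be improved. -/
def ScaleGood (D : Pair G) (N k : ℕ) (η s1 c : ℝ) : Prop :=
  ∀ s, 0 < s → s ≤ s1 → ∀ b, Smooth2 b → G.Anti b →
    |D.Q b| * scaleWeight N η s ≤ c * Real.sqrt (1 + G.nu D.mu s) * G.sk k s b

/-- Telescoping the defect. -/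
theorem Geo.defect_telescope (D : Pair G) (S : Smoother G) (t B : ℝ) (b : X → Bil) (k : ℕ)
    (h : ∀ i, i < k → |D.Q (G.p20 (S.ST t ((G.defect S t)^[i] b)))| ≤ B) :
    |D.Q b| ≤ |D.Q ((G.defect S t)^[k] b)| + k * B := by
  induction k with
  | zero => simp
  | succ k ih =>
    have h1 := ih fun i hi => h i (hi.trans (Nat.lt_succ_self k))
    have h2 := h k (Nat.lt_succ_self k)
    have e : D.Q ((G.defect S t)^[k + 1] b) =
        D.Q ((G.defect S t)^[k] b) - D.Q (G.p20 (S.ST t ((G.defect S t)^[k] b))) := by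
      rw [Function.iterate_succ_apply', Geo.defect, map_sub]
    have h3 : |D.Q ((G.defect S t)^[k] b)| ≤ |D.Q ((G.defect S t)^[k + 1] b)| + B := by
      have := abs_add_le (D.Q ((G.defect S t)^[k + 1] b)) (D.Q (G.p20 (S.ST t ((G.defect S t)^[k] b))))
      rw [e, sub_add_cancel] at this
      rw [e]
      linarith
    push_cast
    linarith

variable [T2Space X] [CompactSpace X] [BorelSpace X]

variable (hB : BaseFacts G)
include hB

omit [T2Space X] [CompactSpace X] [BorelSpace X] hB in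
/-- The a priori bound. -/
theorem Pair.good_start (D : Pair G) : ∃ N : ℕ, ∀ k, N ≤ k → ∀ η, 0 < η → ∀ s1 ≤ (1:ℝ),
    ∃ c : ℝ, 0 ≤ c ∧ ScaleGood D N k η s1 c := by
  obtain ⟨N, CQ, hQ⟩ := D.Q_bound
  refine ⟨N, fun k hk η hη s1 hs1 => ⟨max CQ 0 / η ^ N, by positivity, fun s hs hss b hb ha => ?_⟩⟩
  have hq : |D.Q b| ≤ max CQ 0 * G.hsum N b :=
    (hQ b hb ha).trans (mul_le_mul_of_nonneg_right (le_max_left _ _) (G.hsum_nonneg _ _))
  have hsk : s ^ N * G.hsum N b ≤ G.sk k s b := by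
    refine (G.hsum_le_sk N hs (hss.trans hs1) b).trans ?_
    exact Finset.sum_le_sum_of_subset_of_nonneg (Finset.range_mono (by omega))
      fun l _ _ => mul_nonneg (pow_nonneg hs.le l) (G.hn_nonneg l b)
  have hw : scaleWeight N η s ≤ (s / η) ^ N :=
    pow_le_pow_left₀ (le_min zero_le_one (div_pos hs hη).le) (min_le_right _ _) N
  have hV : 1 ≤ Real.sqrt (1 + G.nu D.mu s) := by
    rw [Real.one_le_sqrt]
    linarith [G.nu_nonneg D.mu s]
  calc |D.Q b| * scaleWeight N η s ≤ max CQ 0 * G.hsum N b * (s / η) ^ N :=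
        mul_le_mul hq hw (scaleWeight_pos N hη hs).le (mul_nonneg (le_max_right _ _) (G.hsum_nonneg _ _))
    _ = max CQ 0 / η ^ N * (s ^ N * G.hsum N b) := by rw [div_pow]; ring
    _ ≤ max CQ 0 / η ^ N * G.sk k s b := mul_le_mul_of_nonneg_left hsk (by positivity)
    _ ≤ max CQ 0 / η ^ N * Real.sqrt (1 + G.nu D.mu s) * G.sk k s b := by
        refine mul_le_mul_of_nonneg_right ?_ (G.sk_nonneg k hs.le b)
        exact le_mul_of_one_le_right (by positivity) hV

/-- One round: the bound at scale `s` from the bound at scale `λ s`. -/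
theorem BaseFacts.good_round (hP : PointFacts G) (hC : CurFacts G) (D : Pair G) (S : Smoother G)
    (N : ℕ) : ∃ C s1 : ℝ, 0 ≤ C ∧ 0 < s1 ∧ s1 ≤ 1 ∧
      ∀ η, 0 < η → ∀ c, 0 ≤ c → ScaleGood D N (N + 2) η s1 c →
        ScaleGood D N (N + 2) η s1 (c / 2 + C) := by
  obtain ⟨A, sA, hA0, hsA0, hsAS, hstep⟩ := hB.scale_step hP hC D S (N + 2)
  obtain ⟨B, hB0, hdef⟩ := hB.defect_sk S (N + 2)
  obtain ⟨L', hL'⟩ := hB.l2_hn
  obtain ⟨lam, hlam0, hlam1, hlam⟩ : ∃ l : ℝ, 0 < l ∧ l ≤ 1 ∧ B * l ≤ 1 / 8 :=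
    ⟨1 / (8 * (B + 1)), by positivity, by rw [div_le_one (by positivity)]; linarith, by
      rw [mul_one_div, div_le_iff₀ (by positivity)]; linarith⟩
  obtain ⟨M, hM0, hM⟩ : ∃ M : ℝ, 0 ≤ M ∧
      M = ((N + 2 : ℕ) : ℝ) * (A * (max L' 0 * B)) * (lam⁻¹) ^ (N + 1) := ⟨_, by positivity, rfl⟩
  refine ⟨M + 2 * M ^ 2 + 1 / 4, min sA (1 / (8 * (M + 1))), by positivity,
    lt_min hsA0 (by positivity), (min_le_left _ _).trans (hsAS.trans S.s0_le),
    fun η hη c hc hgood s hs hss b hb ha => ?_⟩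
  have := D.finite_mu
  have hs1 : s ≤ 1 := hss.trans ((min_le_left _ _).trans (hsAS.trans S.s0_le))
  obtain ⟨t, htdef⟩ : ∃ t, t = lam * s := ⟨_, rfl⟩
  have ht : 0 < t := htdef ▸ mul_pos hlam0 hs
  have hts : t ≤ s := htdef ▸ mul_le_of_le_one_left hs.le hlam1
  have htA : t ≤ sA := hts.trans (hss.trans (min_le_left _ _))
  have htS : t ≤ S.s0 := htA.trans hsAS
  have hMt : M * t ≤ 1 / 8 := by
    have h := mul_le_mul_of_nonneg_left (hts.trans (hss.trans (min_le_right _ _))) hM0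
    refine h.trans ?_
    rw [mul_one_div, div_le_iff₀ (by positivity)]
    linarith
  obtain ⟨w, hw⟩ : ∃ w, w = scaleWeight N η s := ⟨_, rfl⟩
  obtain ⟨wt, hwt⟩ : ∃ w, w = scaleWeight N η t := ⟨_, rfl⟩
  obtain ⟨Vt, hVt⟩ : ∃ V, V = Real.sqrt (1 + G.nu D.mu t) := ⟨_, rfl⟩
  obtain ⟨V, hV⟩ : ∃ V, V = Real.sqrt (1 + G.nu D.mu s) := ⟨_, rfl⟩
  have hw0 : 0 < w := hw ▸ scaleWeight_pos N hη hs
  have hwt0 : 0 < wt := hwt ▸ scaleWeight_pos N hη ht
  have hwt1 : wt ≤ 1 := hwt ▸ scaleWeight_le_one N hη ht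
  have hV0 : 0 ≤ V := hV ▸ Real.sqrt_nonneg _
  have hVt0 : 0 ≤ Vt := hVt ▸ Real.sqrt_nonneg _
  have hsk0 := G.sk_nonneg (N + 2) hs.le b
  have hratio : Vt / wt * w ≤ V * lam⁻¹ ^ (N + 1) := by
    have h1 : Vt ≤ lam⁻¹ * V := by
      have hst : s / t = lam⁻¹ := by
        rw [htdef]; field_simp
      rw [hVt, hV, Real.sqrt_le_iff]
      refine ⟨by positivity, ?_⟩
      rw [mul_pow, Real.sq_sqrt (by linarith [G.nu_nonneg D.mu s]), ← hst]
      have h := G.nu_scale D.mu ht hts hs1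
      have : (1:ℝ) ≤ (s / t) ^ 2 := one_le_pow₀ ((one_le_div ht).2 hts)
      nlinarith
    have h2 : lam ^ N * w ≤ wt := by
      have := scaleWeight_scale N hη ht hts
      rwa [show t / s = lam by rw [htdef]; field_simp, ← hw, ← hwt] at this
    rw [div_mul_eq_mul_div, div_le_iff₀ hwt0]
    calc Vt * w ≤ lam⁻¹ * V * w := mul_le_mul_of_nonneg_right h1 hw0.le
      _ = V * lam⁻¹ ^ (N + 1) * (lam ^ N * w) := by
          rw [inv_pow, pow_succ]; field_simp
      _ ≤ _ := mul_le_mul_of_nonneg_left h2 (by positivity)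
  obtain ⟨q, hq⟩ : ∃ q, q = c * Vt / wt := ⟨_, rfl⟩
  have hq0 : 0 ≤ q := hq ▸ by positivity
  have hQt : ∀ b', Smooth2 b' → G.Anti b' → |D.Q b'| ≤ q * G.sk (N + 2) t b' := fun b' hb' ha' => by
    have h := hgood t ht (hts.trans hss) b' hb' ha'
    rw [← hwt, ← hVt] at h
    rw [hq, div_mul_eq_mul_div, le_div_iff₀ hwt0]
    exact h
  obtain ⟨hsk, hl2⟩ := hdef t s ht hts htS hs1 b hb ha
  have hterm : ∀ i, i < N + 2 → |D.Q (G.p20 (S.ST t ((G.defect S t)^[i] b)))| ≤
      A * (max L' 0 * B) * (Vt / wt) * (Real.sqrt (1 + c) + t * (1 + c) + 1) * G.sk (N + 2) s b := by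
    intro i hi
    obtain ⟨hbi, hai⟩ := hB.defect_iterate_smooth S ht htS i hb ha
    refine (hstep t ht htA q hq0 hQt _ hbi hai).trans ?_
    have hl : G.l2 ((G.defect S t)^[i] b) ≤ max L' 0 * B * G.sk (N + 2) s b := by
      rw [mul_assoc]
      exact ((hL' _ hbi).1.trans (mul_le_mul_of_nonneg_right (le_max_left _ _) (G.hn_nonneg _ _))).trans
        (mul_le_mul_of_nonneg_left (hl2 i hi) (le_max_right _ _))
    have hvV : Real.sqrt (G.nu D.mu t) ≤ Vt := hVt ▸ Real.sqrt_le_sqrt (by linarith)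
    have h := boot_arith hA0 (Real.sqrt_nonneg _) hvV hc ht.le hwt0 hwt1
    rw [← hq] at h
    refine (mul_le_mul h hl (G.l2_nonneg _) ?_).trans (le_of_eq (by ring))
    positivity
  have htel := G.defect_telescope D S t _ b (N + 2) hterm
  have hrem : |D.Q ((G.defect S t)^[N + 2] b)| ≤
      c * (B * lam) * (lam ^ (N + 1) * (Vt / wt)) * G.sk (N + 2) s b := by
    obtain ⟨hbk, hak⟩ := hB.defect_iterate_smooth S ht htS (N + 2) hb ha
    refine (hQt _ hbk hak).trans ((mul_le_mul_of_nonneg_left hsk hq0).trans (le_of_eq ?_))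
    rw [hq, show t / s = lam by rw [htdef]; field_simp, pow_succ lam (N + 1)]
    ring
  have hX : |D.Q b| * w ≤ (c / 8 + M * (Real.sqrt (1 + c) + t * (1 + c) + 1)) *
      (V * G.sk (N + 2) s b) := by
    refine (mul_le_mul_of_nonneg_right (htel.trans (add_le_add hrem le_rfl)) hw0.le).trans ?_
    have hlp : lam ^ (N + 1) * lam⁻¹ ^ (N + 1) = 1 := by
      rw [← mul_pow, mul_inv_cancel₀ hlam0.ne', one_pow]
    have e1 : c * (B * lam) * (lam ^ (N + 1) * (V * lam⁻¹ ^ (N + 1))) ≤ c / 8 * V := by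
      calc c * (B * lam) * (lam ^ (N + 1) * (V * lam⁻¹ ^ (N + 1)))
          = c * (B * lam) * V * (lam ^ (N + 1) * lam⁻¹ ^ (N + 1)) := by ring
        _ = c * (B * lam) * V := by rw [hlp, mul_one]
        _ ≤ c * (1 / 8) * V := mul_le_mul_of_nonneg_right (mul_le_mul_of_nonneg_left hlam hc) hV0
        _ = c / 8 * V := by ring
    set R := Real.sqrt (1 + c) + t * (1 + c) + 1 with hR
    have hR0 : 0 ≤ R := by positivity
    calc _ = c * (B * lam) * (lam ^ (N + 1) * (Vt / wt * w)) * G.sk (N + 2) s b +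
          ((N + 2 : ℕ) : ℝ) * (A * (max L' 0 * B)) * (Vt / wt * w) * R * G.sk (N + 2) s b := by ring
      _ ≤ c * (B * lam) * (lam ^ (N + 1) * (V * lam⁻¹ ^ (N + 1))) * G.sk (N + 2) s b +
          ((N + 2 : ℕ) : ℝ) * (A * (max L' 0 * B)) * (V * lam⁻¹ ^ (N + 1)) * R * G.sk (N + 2) s b := by
          gcongr
      _ ≤ c / 8 * V * G.sk (N + 2) s b + M * V * R * G.sk (N + 2) s b := by
          refine add_le_add (mul_le_mul_of_nonneg_right e1 hsk0) (le_of_eq ?_)
          rw [hM]; ring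
      _ = _ := by ring
  rw [← hw, ← hV, mul_assoc]
  refine hX.trans (mul_le_mul_of_nonneg_right ?_ (mul_nonneg hV0 hsk0))
  have h1 := sqrt_absorb (A := M) hc
  have h2 : M * t * (1 + c) ≤ 1 / 8 * (1 + c) := mul_le_mul_of_nonneg_right hMt (by linarith)
  nlinarith

/-- The bootstrap over scales. -/
theorem BaseFacts.scale_bound (hP : PointFacts G) (hC : CurFacts G) (D : Pair G) (S : Smoother G) :
    ScaleBound D := by
  obtain ⟨N, hstart⟩ := D.good_start
  obtain ⟨C, s1, hC0, hs10, hs11, hround⟩ := hB.good_round hP hC D S N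
  refine ⟨N + 2, 2 * C + 1, s1, hs10, fun s hs hss b hb ha => ?_⟩
  obtain ⟨c0, hc0, hgood0⟩ := hstart (N + 2) (by omega) s hs s1 hs11
  have hall : ∀ n : ℕ, ScaleGood D N (N + 2) s s1 (c0 * (1 / 2) ^ n + 2 * C) := by
    intro n
    induction n with
    | zero =>
      intro t ht htt b' hb' ha'
      refine (hgood0 t ht htt b' hb' ha').trans ?_
      refine mul_le_mul_of_nonneg_right (mul_le_mul_of_nonneg_right ?_ (Real.sqrt_nonneg _))
        (G.sk_nonneg _ ht.le b')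
      simp; linarith
    | succ n ih =>
      have := hround s hs _ (by positivity) ih
      rw [show (c0 * (1 / 2) ^ n + 2 * C) / 2 + C = c0 * (1 / 2) ^ (n + 1) + 2 * C by ring] at this
      exact this
  obtain ⟨n, hn⟩ := exists_pow_lt_of_lt_one (show (0:ℝ) < 1 / (c0 + 1) by positivity)
    (show (1 / 2 : ℝ) < 1 by norm_num)
  have h := hall n s hs hss b hb ha
  have hw : scaleWeight N s s = 1 := by
    rw [scaleWeight, div_self hs.ne', min_self, one_pow]
  rw [hw, mul_one] at h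
  refine h.trans (mul_le_mul_of_nonneg_right (mul_le_mul_of_nonneg_right ?_ (Real.sqrt_nonneg _))
    (G.sk_nonneg _ hs.le b))
  have : c0 * (1 / 2) ^ n ≤ 1 := by
    calc c0 * (1 / 2) ^ n ≤ c0 * (1 / (c0 + 1)) := mul_le_mul_of_nonneg_left hn.le hc0
      _ ≤ 1 := by rw [mul_one_div, div_le_one (by positivity)]; linarith
  linarith

omit hB in
/-- The bootstrap statement from the shared facts. -/
theorem bootstrap_of_base (hB : BaseStatement.{u}) (hP : PointStatement.{u}) (hC : CurStatement.{u}) :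
    BootstrapStatement.{u} :=
  fun X _ _ _ _ _ _ _ G D S => (hB X G).scale_bound (hP X G) (hC X G) D S

end Vale.Agent.P204.Full
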