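import Vale.Agent.P204.Full.Scales.Alg
import Vale.Agent.P204.Full.Scales.Avg
import Vale.Agent.P204.Full.Common.Local

/-!
P204 scales: bounds obtained by duality from the pointwise properties of the smoothing operators.
-/

open scoped Manifold ContDiff Topology
open MeasureTheory Set

noncomputable section

namespace Vale.Agent.P204.Full

universe u

theorem le_of_sq_le_mul_self {x b : ℝ} (hb : 0 ≤ b) (h : x ^ 2 ≤ b * x) : x ≤ b := by
  by_contra hn
  push Not at hn
  nlinarith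

variable {X : Type u} [TopologicalSpace X] [T2Space X] [CompactSpace X] [ChartedSpace R4 X]
  [IsManifold 𝓘(ℝ, R4) ∞ X] [MeasurableSpace X] [BorelSpace X] {G : Geo X}

omit [T2Space X] [CompactSpace X] [BorelSpace X] in
theorem Geo.l2_nonneg (θ : X → Bil) : 0 ≤ G.l2 θ := Real.sqrt_nonneg _

omit [T2Space X] [CompactSpace X] [BorelSpace X] in
theorem Geo.l2_sq (θ : X → Bil) : G.l2 θ ^ 2 = ∫ x, G.nrm2 θ x ^ 2 ∂G.vol :=
  Real.sq_sqrt (integral_nonneg fun _ => sq_nonneg _)

variable (hB : BaseFacts G)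
include hB

omit [T2Space X] in
theorem BaseFacts.bddMeas_nrm2 {θ : X → Bil} (hθ : Cont2 θ) : BddMeas (G.nrm2 θ) :=
  continuous_bddMeas (hB.nrm2_cont θ hθ)

omit [T2Space X] [CompactSpace X] [BorelSpace X] in
theorem BaseFacts.nrm2_nonneg (θ : X → Bil) (x : X) : 0 ≤ G.nrm2 θ x := by
  rw [hB.nrm2_eq]
  exact G.nrmVal_nn _ _

omit [T2Space X] in
theorem BaseFacts.l2_le {θ η : X → Bil} (hθ : Cont2 θ) (hη : Cont2 η) {c : ℝ} (hc : 0 ≤ c)
    (h : ∀ x, G.nrm2 θ x ≤ c * G.nrm2 η x) : G.l2 θ ≤ c * G.l2 η := by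
  have := hB.vol_finite
  have hi : ∀ {ζ : X → Bil}, Cont2 ζ → Integrable (fun x => G.nrm2 ζ x ^ 2) G.vol := fun {ζ} hz => by
    simpa [sq] using ((hB.bddMeas_nrm2 hz).mul (hB.bddMeas_nrm2 hz)).integrable G.vol
  rw [← pow_le_pow_iff_left₀ (G.l2_nonneg θ) (mul_nonneg hc (G.l2_nonneg η)) two_ne_zero, mul_pow,
    G.l2_sq, G.l2_sq, ← integral_const_mul]
  refine integral_mono (hi hθ) ((hi hη).const_mul _) fun x => ?_
  calc G.nrm2 θ x ^ 2 ≤ (c * G.nrm2 η x) ^ 2 := pow_le_pow_left₀ (hB.nrm2_nonneg θ x) (h x) 2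
    _ = c ^ 2 * G.nrm2 η x ^ 2 := mul_pow _ _ _

/-- A current applied to a form dominated by an average is controlled by the density. -/
theorem BaseFacts.cur_pt (hC : CurFacts G) : ∃ C : ℝ, 0 ≤ C ∧ ∀ (D : PosCur G) (s r : ℝ), 0 < s →
    s ≤ r → r ≤ 1 → ∀ η θ, Cont2 η → Cont2 θ → ∀ a : ℝ, 0 ≤ a →
      (∀ x, G.nrm2 η x ≤ a * G.avg r (G.nrm2 θ) x) →
        |D.P η| ≤ C * a * Real.sqrt (D.mu.real univ) * (Real.sqrt (G.nu D.mu s) / s) * G.l2 θ := by
  obtain ⟨CP, hP⟩ := hC.bound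
  obtain ⟨CM, hCM0, hM⟩ := hB.mavg_sq
  refine ⟨max CP 0 * Real.sqrt CM, by positivity, fun D s r hs hsr hr1 η θ hη hθ a ha hle => ?_⟩
  have := D.finite_mu
  have := hB.vol_finite
  have hr := hs.trans_le hsr
  have hn := hB.bddMeas_nrm2 hθ
  have h1 : ∫ x, G.nrm2 η x ∂D.mu ≤ a * ∫ x, G.avg r (G.nrm2 θ) x ∂D.mu := by
    rw [← integral_const_mul]
    exact integral_mono ((hB.bddMeas_nrm2 hη).integrable _)
      (((hB.bddMeas_avg hn r).integrable _).const_mul a) hle
  rw [avg_integral_eq hB r D.mu (hn.integrable _)] at h1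
  have h2 := integral_mul_le_sqrt G.vol hn (hB.bddMeas_mavg D.mu r)
  rw [← show G.l2 θ = Real.sqrt (∫ x, G.nrm2 θ x ^ 2 ∂G.vol) from rfl] at h2
  have h3 : Real.sqrt (∫ z, G.mavg D.mu r z ^ 2 ∂G.vol) ≤
      Real.sqrt CM * Real.sqrt (D.mu.real univ) * (Real.sqrt (G.nu D.mu s) / s) := by
    have h4 : ∫ z, G.mavg D.mu r z ^ 2 ∂G.vol ≤ CM * D.mu.real univ * (G.nu D.mu s / s ^ 2) := by
      refine (hM D.mu r hr hr1).trans ?_
      rw [mul_div_assoc]
      refine mul_le_mul_of_nonneg_left ?_ (mul_nonneg hCM0 measureReal_nonneg)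
      exact div_le_div₀ (G.nu_nonneg _ _) (G.nu_anti D.mu hs hsr) (by positivity)
        (pow_le_pow_left₀ hs.le hsr 2)
    refine (Real.sqrt_le_sqrt h4).trans (le_of_eq ?_)
    rw [Real.sqrt_mul (mul_nonneg hCM0 measureReal_nonneg), Real.sqrt_mul hCM0,
      Real.sqrt_div' _ (by positivity), Real.sqrt_sq hs.le]
  calc |D.P η| ≤ max CP 0 * ∫ x, G.nrm2 η x ∂D.mu :=
        (hP D η hη).trans (mul_le_mul_of_nonneg_right (le_max_left _ _)
          (integral_nonneg (hB.nrm2_nonneg η)))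
    _ ≤ max CP 0 * (a * (G.l2 θ *
          (Real.sqrt CM * Real.sqrt (D.mu.real univ) * (Real.sqrt (G.nu D.mu s) / s)))) := by
        refine mul_le_mul_of_nonneg_left (h1.trans (mul_le_mul_of_nonneg_left (h2.trans ?_) ha))
          (le_max_right _ _)
        exact mul_le_mul_of_nonneg_left h3 (G.l2_nonneg θ)
    _ = _ := by ring

omit [T2Space X] in
/-- Every smooth field has an invariant test form detecting its invariant part. -/
theorem BaseFacts.inv_test (hP : PointFacts G) : ∃ C : ℝ, 0 ≤ C ∧ ∀ F, Smooth2 F →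
    ∃ θ, Smooth2 θ ∧ G.Inv θ ∧ G.l2 (G.p11 F) ^ 2 ≤ C * G.pair F θ ∧
      G.l2 θ ≤ C * G.l2 (G.p11 F) := by
  obtain ⟨CI, hCI, hI⟩ := hP.W_inv
  obtain ⟨CW, hW⟩ := hP.W_bound
  obtain ⟨Ω, hΩ⟩ := (hB.bddMeas_nrm2 (hB.smooth_cont _ G.omega_smooth)).bdd
  refine ⟨max (max CI 0) (2 * (max CW 0 * |Ω|) * |Ω| + 1), le_trans (le_max_right _ _) (le_max_left _ _),
    fun F hF => ?_⟩
  set A := G.p11 F with hA
  have hAs : Smooth2 A := (hB.p11_smooth F hF).1
  have hAat : ∀ x, G.InvAt x (A x) := fun x => G.invAt_of_inv (hB.p11_smooth F hF).2 hAs x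
  set θ : X → Bil := (2 : ℝ) • (fun x => G.W x (A x) (G.omega x) • G.omega x) + (-1 : ℝ) • A with hθ
  have hθs : Smooth2 θ :=
    ((hB.smul2 _ _ (hB.W_smooth _ _ hAs G.omega_smooth) G.omega_smooth).smul 2).add (hAs.smul _)
  have hval : ∀ x, θ x = (2 * G.W x (A x) (G.omega x)) • G.omega x + (-1 : ℝ) • A x := fun x => by
    rw [hθ, ← smul_smul]; rfl
  have hθat : ∀ x, G.InvAt x (θ x) := fun x => by
    refine ⟨hθs.1 x, ?_⟩
    rw [hval, pullBil_add, pullBil_smul, pullBil_smul, (hP.omega_at x).1.2, (hAat x).2]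
  have hWF : ∀ x, G.W x (F x) (θ x) =
      2 * G.W x (A x) (G.omega x) ^ 2 - G.W x (A x) (A x) := fun x => by
    have e : F x = A x + anti20 (G.J x) (F x) := (hP.split x (F x)).symm
    conv_lhs => rw [e]
    rw [G.W_add_left, hP.W_symm x (anti20 _ _), hP.W_inv_anti x _ _ (hθat x) (hP.anti20_at x _ (hF.1 x)),
      add_zero, hval, G.W_add_right, G.W_smul_right, G.W_smul_right]
    ring
  refine ⟨θ, hθs, fun x u v => DFunLike.congr_fun (DFunLike.congr_fun (hθat x).2 u) v, ?_, ?_⟩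
  · have := hB.vol_finite
    have hn := hB.bddMeas_nrm2 (hB.smooth_cont _ hAs)
    have hi : Integrable (fun x => G.W x (F x) (θ x)) G.vol :=
      hB.pair_integrable _ _ (hB.smooth_cont _ hF) (hB.smooth_cont _ hθs)
    rw [G.l2_sq, Geo.pair, ← integral_const_mul]
    refine integral_mono (by simpa [sq] using (hn.mul hn).integrable G.vol) (hi.const_mul _)
      fun x => ?_
    have h := hI x (A x) (hAat x)
    rw [← hWF] at h
    rw [← hB.nrm2_eq A x] at h
    have hp : 0 ≤ G.W x (F x) (θ x) := by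
      by_contra hn
      push Not at hn
      nlinarith [sq_nonneg (G.nrm2 A x), mul_neg_of_pos_of_neg hCI hn]
    exact h.trans (mul_le_mul_of_nonneg_right ((le_max_left _ _).trans (le_max_left _ _)) hp)
  · refine hB.l2_le (hB.smooth_cont _ hθs) (hB.smooth_cont _ hAs)
      (le_trans (le_max_right _ _) (le_max_left _ _)) fun x => ?_
    rw [hB.nrm2_eq, hB.nrm2_eq A, hval]
    have hO : G.nrmVal x (G.omega x) ≤ |Ω| := by
      rw [← hB.nrm2_eq]
      exact (le_abs_self _).trans ((hΩ x).trans (le_abs_self _))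
    have hw : |G.W x (A x) (G.omega x)| ≤ max CW 0 * |Ω| * G.nrmVal x (A x) := by
      refine (hW x _ _ (hAat x).1 (G.omega_smooth.1 x)).trans ?_
      rw [mul_right_comm]
      refine mul_le_mul_of_nonneg_right ?_ (G.nrmVal_nn _ _)
      exact mul_le_mul (le_max_left _ _) hO (G.nrmVal_nn _ _) (le_max_right _ _)
    calc _ ≤ |2 * G.W x (A x) (G.omega x)| * G.nrmVal x (G.omega x) + G.nrmVal x (A x) := by
          refine (G.nrmVal_add _ _ _).trans (le_of_eq ?_)
          rw [G.nrmVal_smul, G.nrmVal_smul]; simp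
      _ ≤ 2 * (max CW 0 * |Ω| * G.nrmVal x (A x)) * |Ω| + G.nrmVal x (A x) := by
          refine (add_le_add_iff_right _).2 (mul_le_mul ?_ hO (G.nrmVal_nn _ _) ?_)
          · rw [abs_mul, abs_two]; linarith
          · linarith [(abs_nonneg _).trans hw]
      _ = (2 * (max CW 0 * |Ω|) * |Ω| + 1) * G.nrmVal x (A x) := by ring
      _ ≤ _ := mul_le_mul_of_nonneg_right (le_max_right _ _) (G.nrmVal_nn _ _)

/-- The invariant part of a smoothed positive current is almost positive. -/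
theorem BaseFacts.cur_pos (hP : PointFacts G) (hC : CurFacts G) (S : Smoother G) :
    ∃ C K' s1 : ℝ, 0 ≤ C ∧ 1 ≤ K' ∧ 0 < s1 ∧ s1 ≤ S.s0 ∧ K' * s1 ≤ 1 ∧
      ∀ (D : PosCur G) (s : ℝ), 0 < s → s ≤ s1 → ∀ F, Smooth2 F →
        (∀ θ, Smooth2 θ → G.pair F θ = D.P (S.ST s θ)) →
          ∀ x, G.PosAt x (G.p11 F x + (C * s ^ 2 * G.mavg D.mu (K' * s) x) • G.omega x) := by
  obtain ⟨C1', hpos'⟩ := S.pt_pos
  obtain ⟨Cp', -, hp'⟩ := hP.pos_nrm
  obtain ⟨Ct, rt, hCt, hrt, htr⟩ := hB.near_trans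
  set C1 := max C1' 0 with hC1
  set Cp := max Cp' 0 with hCp
  set K := S.K with hK
  have hK1 : 1 ≤ K := S.K_one
  set K' := 2 * Ct * K with hK'
  have hK'K : K ≤ K' := by nlinarith
  refine ⟨C1 * Cp * (2 * Ct) ^ 4, K', min S.s0 (min (rt / (2 * K)) (1 / K')), by positivity, by linarith,
    lt_min S.s0_pos (lt_min (by positivity) (div_pos one_pos (by linarith))), min_le_left _ _, ?_, ?_⟩
  · calc K' * min S.s0 (min (rt / (2 * K)) (1 / K')) ≤ K' * (1 / K') :=
          mul_le_mul_of_nonneg_left ((min_le_right _ _).trans (min_le_right _ _)) (by linarith)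
      _ = 1 := mul_one_div_cancel (by linarith)
  intro D s hs hs1 F hF hFT x0
  have := D.finite_mu
  have := hB.vol_finite
  have hsS : s ≤ S.s0 := hs1.trans (min_le_left _ _)
  have hKs : 0 < K * s := by positivity
  have h2Ks : K * s + K * s ≤ rt := by
    have := (le_div_iff₀ (by positivity)).1 (hs1.trans ((min_le_right _ _).trans (min_le_left _ _)))
    linarith
  set A := G.p11 F with hA
  have hAs : Smooth2 A := (hB.p11_smooth F hF).1
  set c := C1 * Cp * (2 * Ct) ^ 4 * s ^ 2 * G.mavg D.mu (K' * s) x0 with hc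
  have hAat : G.InvAt x0 (A x0) := G.invAt_of_inv (hB.p11_smooth F hF).2 hAs x0
  have hAc : G.InvAt x0 (A x0 + c • G.omega x0) :=
    ⟨hAat.1.add ((hP.omega_at x0).1.1.smul c),
      by rw [pullBil_add, pullBil_smul, hAat.2, (hP.omega_at x0).1.2]⟩
  refine hP.W_dual x0 _ hAc fun α => ?_
  obtain ⟨a, ha, hax⟩ := exists_cov_field hB x0 α
  set P : X → Bil := fun x => posForm (G.J x) (a x) with hPdef
  have hPs : Smooth2 P := by
    have hneg := hB.smul1 (fun _ => (-1 : ℝ)) _ contMDiff_const (hB.compJ_smooth a ha)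
    simpa [hPdef, posForm] using hB.wedge_smooth a _ ha hneg
  have hPat : ∀ x, G.PosAt x (P x) := fun x => hP.posForm_at x (a x)
  set h : X → ℝ := fun x => G.W x (A x) (P x) + c * G.W x (P x) (G.omega x) with hh
  have hcont : Continuous h :=
    (hB.W_smooth _ _ hAs hPs).continuous.add ((hB.W_smooth _ _ hPs G.omega_smooth).continuous.const_mul c)
  have hgoal : G.W x0 (A x0 + c • G.omega x0) (posForm (G.J x0) α) = h x0 := by
    rw [hh, G.W_add_left, G.W_smul_left, hP.W_symm x0 (G.omega x0), ← hax]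
  rw [hgoal]
  refine nonneg_of_tested hB hcont x0 ((near_basis hB x0 Filter.univ_mem).2 _ hKs)
    fun φ hφsm hφ0 hφ => ?_
  set θ : X → Bil := fun x => φ x • P x with hθ
  have hθs : Smooth2 θ := hB.smul2 _ _ hφsm hPs
  have hθi : G.Inv θ := fun x u v => by
    show φ x * P x (G.J x u) (G.J x v) = φ x * P x u v
    have e : P x (G.J x u) (G.J x v) = P x u v :=
      DFunLike.congr_fun (DFunLike.congr_fun (hPat x).1.2 u) v
    rw [e]
  have hθp : G.SemiPos θ := fun x v => mul_nonneg (hφ0 x) ((hPat x).2 v)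
  have hn := hB.bddMeas_nrm2 (hB.smooth_cont _ hθs)
  set f1 : X → ℝ := fun x => C1 * s ^ 2 * G.avg (K * s) (G.nrm2 θ) x with hf1
  have hlow : -(∫ x, f1 x ∂D.mu) ≤ D.P (S.ST s θ) := by
    refine hC.lower D _ f1 (hB.smooth_cont _ (S.smooth s hs hsS θ hθs))
      (((hB.bddMeas_avg hn _).integrable _).const_mul _)
      (fun x => mul_nonneg (by positivity) (avg_nonneg _ (hB.nrm2_nonneg θ) x)) fun x v => ?_
    refine le_trans ?_ (hpos' s hs hsS θ hθs hθi hθp x v)
    have hm : 0 ≤ G.metric x v v := by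
      show 0 ≤ G.omega x v (G.J x v)
      exact (hP.omega_at x).2 v
    have hav := avg_nonneg (G := G) (K * s) (hB.nrm2_nonneg θ) x
    simp only [hf1, hC1]
    gcongr
    exact le_max_left _ _
  rw [← hFT θ hθs, hf1, integral_const_mul, avg_integral_eq hB _ D.mu (hn.integrable _),
    ← integral_const_mul, Geo.pair] at hlow
  have hpt : ∀ x, G.W x (F x) (θ x) + C1 * s ^ 2 * (G.nrm2 θ x * G.mavg D.mu (K * s) x) ≤
      φ x * h x := by
    intro x
    have e1 : G.W x (F x) (θ x) = φ x * G.W x (A x) (P x) := by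
      show G.W x (F x) (φ x • P x) = _
      rw [G.W_smul_right]
      congr 1
      conv_lhs => rw [← hP.split x (F x)]
      rw [G.W_add_left, hP.W_symm x (anti20 _ _),
        hP.W_inv_anti x _ _ (hPat x).1 (hP.anti20_at x _ (hF.1 x)), add_zero]
      rfl
    rw [e1, hh, mul_add]
    refine (add_le_add_iff_left _).2 ?_
    rcases (hφ0 x).eq_or_lt with h0 | h0
    · have : G.nrm2 θ x = 0 := by
        rw [hB.nrm2_eq, show θ x = φ x • P x from rfl, G.nrmVal_smul, ← h0]; simp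
      rw [this, ← h0]; simp
    · have hxU : x ∈ G.near (K * s) x0 := hφ h0.ne'
      have hw0 : 0 ≤ G.W x (P x) (G.omega x) := hP.pos_W x _ _ (hPat x) (hP.omega_at x)
      have h1 : G.nrm2 θ x ≤ φ x * (Cp * G.W x (P x) (G.omega x)) := by
        rw [hB.nrm2_eq, show θ x = φ x • P x from rfl, G.nrmVal_smul, abs_of_pos h0]
        exact mul_le_mul_of_nonneg_left
          ((hp' x _ (hPat x)).trans (mul_le_mul_of_nonneg_right (le_max_left _ _) hw0)) h0.le
      have h2 : G.mavg D.mu (K * s) x ≤ (2 * Ct) ^ 4 * G.mavg D.mu (K' * s) x0 := by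
        have hsub : G.near (K * s) x ⊆ G.near (K' * s) x0 := fun z hz => by
          have := htr (K * s) (K * s) x0 x z hKs.le hKs.le h2Ks hxU hz
          rwa [show Ct * (K * s + K * s) = K' * s by rw [hK']; ring] at this
        calc G.mavg D.mu (K * s) x ≤ ((K * s) ^ 4)⁻¹ * D.mu.real (G.near (K' * s) x0) :=
              mul_le_mul_of_nonneg_left (measureReal_mono hsub) (by positivity)
          _ = _ := by rw [Geo.mavg, hK']; field_simp
      calc C1 * s ^ 2 * (G.nrm2 θ x * G.mavg D.mu (K * s) x)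
          ≤ C1 * s ^ 2 * (φ x * (Cp * G.W x (P x) (G.omega x)) *
              ((2 * Ct) ^ 4 * G.mavg D.mu (K' * s) x0)) := by
            refine mul_le_mul_of_nonneg_left (mul_le_mul h1 h2 (mavg_nonneg _ _ _) ?_) (by positivity)
            exact mul_nonneg h0.le (mul_nonneg (le_max_right _ _) hw0)
        _ = φ x * (c * G.W x (P x) (G.omega x)) := by rw [hc]; ring
  have i1 : Integrable (fun x => G.W x (F x) (θ x)) G.vol :=
    hB.pair_integrable _ _ (hB.smooth_cont _ hF) (hB.smooth_cont _ hθs)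
  have i2 : Integrable (fun x => C1 * s ^ 2 * (G.nrm2 θ x * G.mavg D.mu (K * s) x)) G.vol :=
    ((hn.mul (hB.bddMeas_mavg D.mu _)).integrable _).const_mul _
  have i3 : Integrable (fun x => φ x * h x) G.vol :=
    (continuous_bddMeas (hφsm.continuous.mul hcont)).integrable _
  have h4 := integral_mono (i1.add i2) i3 hpt
  simp only [Pi.add_apply] at h4
  rw [integral_add i1 i2] at h4
  linarith

end Vale.Agent.P204.Full
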