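import Vale.Agent.P204.Full.Scales.Step

/-!
P204 scales: iterates of the defect `b - (S b)^{20}` gain powers of the scale.
-/

open scoped Manifold ContDiff Topology
open MeasureTheory Set

noncomputable section

namespace Vale.Agent.P204.Full

universe u

variable {X : Type u} [TopologicalSpace X] [ChartedSpace R4 X] [IsManifold 𝓘(ℝ, R4) ∞ X]
  [MeasurableSpace X] {G : Geo X}

/-- The defect of smoothing at scale `t` on anti-invariant fields. -/
def Geo.defect (S : Smoother G) (t : ℝ) (b : X → Bil) : X → Bil := b - G.p20 (S.ST t b)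

theorem Geo.defect_eq (S : Smoother G) (t : ℝ) {b : X → Bil} (hb : G.Anti b) :
    G.defect S t b = G.p20 (b - S.ST t b) := by
  rw [Geo.defect, ← G.p20L_apply, ← G.p20L_apply, map_sub, G.p20L_apply b, G.p20_of_anti hb]

variable (hB : BaseFacts G)
include hB

theorem BaseFacts.defect_smooth (S : Smoother G) {t : ℝ} (ht : 0 < t) (htS : t ≤ S.s0) {b : X → Bil}
    (hb : Smooth2 b) (ha : G.Anti b) :
    Smooth2 (G.defect S t b) ∧ G.Anti (G.defect S t b) := by
  rw [G.defect_eq S t ha]
  exact hB.p20_smooth _ (hb.sub (S.smooth t ht htS b hb))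

theorem BaseFacts.defect_iterate_smooth (S : Smoother G) {t : ℝ} (ht : 0 < t) (htS : t ≤ S.s0)
    (m : ℕ) {b : X → Bil} (hb : Smooth2 b) (ha : G.Anti b) :
    Smooth2 ((G.defect S t)^[m] b) ∧ G.Anti ((G.defect S t)^[m] b) := by
  induction m with
  | zero => exact ⟨hb, ha⟩
  | succ m ih =>
    rw [Function.iterate_succ_apply']
    exact hB.defect_smooth S ht htS ih.1 ih.2

theorem BaseFacts.hn_sub (j : ℕ) {θ η : X → Bil} (hθ : Smooth2 θ) (hη : Smooth2 η) :
    G.hn j (θ - η) ≤ G.hn j θ + G.hn j η := by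
  have h := hB.hn_add j θ ((-1 : ℝ) • η) hθ (hη.smul _)
  rw [hB.hn_smul j _ η hη, abs_neg, abs_one, one_mul, neg_one_smul, ← sub_eq_add_neg] at h
  exact h

theorem BaseFacts.hsum_sub (j : ℕ) {θ η : X → Bil} (hθ : Smooth2 θ) (hη : Smooth2 η) :
    G.hsum j (θ - η) ≤ G.hsum j θ + G.hsum j η := by
  simp only [Geo.hsum, ← Finset.sum_add_distrib]
  exact Finset.sum_le_sum fun l _ => hB.hn_sub l hθ hη

/-- The defect is bounded and gains one power of the scale against one derivative. -/
theorem BaseFacts.defect_bounds (S : Smoother G) (j : ℕ) : ∃ C : ℝ, 0 ≤ C ∧ ∀ t, 0 < t → t ≤ S.s0 →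
    ∀ b, Smooth2 b → G.Anti b → G.hsum j (G.defect S t b) ≤ C * G.hsum j b ∧
      G.hsum j (G.defect S t b) ≤ C * t * G.hsum (j + 1) b := by
  obtain ⟨Cp, hp⟩ := hB.p20_hsum j
  obtain ⟨Cb, hb'⟩ := S.hsum_bound j
  obtain ⟨Ca, ha'⟩ := S.hsum_approx j
  refine ⟨max Cp 0 * (1 + max Cb 0 + max Ca 0), by positivity, fun t ht htS b hb ha => ?_⟩
  have hs := S.smooth t ht htS b hb
  rw [G.defect_eq S t ha]
  have h1 : G.hsum j (G.p20 (b - S.ST t b)) ≤ max Cp 0 * G.hsum j (b - S.ST t b) :=
    (hp _ (hb.sub hs)).1.trans (mul_le_mul_of_nonneg_right (le_max_left _ _) (G.hsum_nonneg _ _))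
  have hp0 : 0 ≤ max Cp 0 := le_max_right _ _
  have hb0 : 0 ≤ max Cb 0 := le_max_right _ _
  have ha0 : 0 ≤ max Ca 0 := le_max_right _ _
  have n0 := G.hsum_nonneg j b
  have n1 := G.hsum_nonneg (j + 1) b
  constructor
  · calc G.hsum j (G.p20 (b - S.ST t b)) ≤ max Cp 0 * ((1 + max Cb 0) * G.hsum j b) := by
          refine h1.trans (mul_le_mul_of_nonneg_left ?_ hp0)
          refine (hB.hsum_sub j hb hs).trans ?_
          have := (hb' t ht htS b hb).trans (mul_le_mul_of_nonneg_right (le_max_left Cb 0) n0)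
          linarith
      _ ≤ max Cp 0 * ((1 + max Cb 0 + max Ca 0) * G.hsum j b) :=
        mul_le_mul_of_nonneg_left (mul_le_mul_of_nonneg_right (by linarith) n0) hp0
      _ = _ := by ring
  · calc G.hsum j (G.p20 (b - S.ST t b)) ≤ max Cp 0 * (max Ca 0 * t * G.hsum (j + 1) b) := by
          refine h1.trans (mul_le_mul_of_nonneg_left ?_ hp0)
          exact (ha' t ht htS b hb).trans (mul_le_mul_of_nonneg_right
            (mul_le_mul_of_nonneg_right (le_max_left _ _) ht.le) n1)
      _ ≤ max Cp 0 * ((1 + max Cb 0 + max Ca 0) * t * G.hsum (j + 1) b) :=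
        mul_le_mul_of_nonneg_left (mul_le_mul_of_nonneg_right
          (mul_le_mul_of_nonneg_right (by linarith) ht.le) n1) hp0
      _ = _ := by ring

/-- Iterates of the defect. -/
theorem BaseFacts.defect_iterate (S : Smoother G) (m : ℕ) : ∀ j, ∃ C : ℝ, 0 ≤ C ∧
    ∀ t, 0 < t → t ≤ S.s0 → ∀ b, Smooth2 b → G.Anti b →
      G.hsum j ((G.defect S t)^[m] b) ≤ C * G.hsum j b ∧
        G.hsum j ((G.defect S t)^[m] b) ≤ C * t ^ m * G.hsum (j + m) b := by
  induction m with
  | zero => exact fun j => ⟨1, zero_le_one, fun t _ _ b _ _ => by simp⟩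
  | succ m ih =>
    intro j
    obtain ⟨C1, hC1, h1⟩ := hB.defect_bounds S j
    obtain ⟨C2, hC2, h2⟩ := ih j
    obtain ⟨C3, hC3, h3⟩ := ih (j + 1)
    refine ⟨C1 * C2 + C1 * C3, by positivity, fun t ht htS b hb ha => ?_⟩
    obtain ⟨hs, hsa⟩ := hB.defect_iterate_smooth S ht htS m hb ha
    have n0 := G.hsum_nonneg j b
    have n1 := G.hsum_nonneg (j + (m + 1)) b
    rw [Function.iterate_succ_apply']
    constructor
    · calc _ ≤ C1 * (C2 * G.hsum j b) :=
            (h1 t ht htS _ hs hsa).1.trans (mul_le_mul_of_nonneg_left (h2 t ht htS b hb ha).1 hC1)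
        _ ≤ (C1 * C2 + C1 * C3) * G.hsum j b := by nlinarith [mul_nonneg (mul_nonneg hC1 hC3) n0]
    · calc _ ≤ C1 * t * (C3 * t ^ m * G.hsum (j + (m + 1)) b) := by
            refine (h1 t ht htS _ hs hsa).2.trans (mul_le_mul_of_nonneg_left ?_ (by positivity))
            have := (h3 t ht htS b hb ha).2
            rwa [show j + 1 + m = j + (m + 1) by ring] at this
        _ = C1 * C3 * (t ^ (m + 1) * G.hsum (j + (m + 1)) b) := by ring
        _ ≤ (C1 * C2 + C1 * C3) * (t ^ (m + 1) * G.hsum (j + (m + 1)) b) := by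
            gcongr
            nlinarith [mul_nonneg hC1 hC2]
        _ = _ := by ring

/-- After `k` steps the scaled norm has gained the ratio of the scales to the power `k`. -/
theorem BaseFacts.defect_sk (S : Smoother G) (k : ℕ) : ∃ C : ℝ, 0 ≤ C ∧ ∀ t s, 0 < t → t ≤ s →
    t ≤ S.s0 → s ≤ 1 → ∀ b, Smooth2 b → G.Anti b →
      G.sk k t ((G.defect S t)^[k] b) ≤ C * (t / s) ^ k * G.sk k s b ∧
        ∀ i, i < k → G.hn 0 ((G.defect S t)^[i] b) ≤ C * G.sk k s b := by
  choose C1 hC1 h1 using fun l : ℕ => hB.defect_iterate S l l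
  choose C2 hC2 h2 using fun l : ℕ => hB.defect_iterate S (k - l) l
  choose C3 hC3 h3 using fun i : ℕ => hB.defect_iterate S i 0
  refine ⟨∑ l ∈ Finset.range (k + 1), (C1 l * C2 l + C3 l),
    Finset.sum_nonneg fun l _ => by have := hC1 l; have := hC2 l; have := hC3 l; positivity,
    fun t s ht hts htS hs1 b hb ha => ⟨?_, fun i hi => ?_⟩⟩
  · have hs := ht.trans_le hts
    rw [mul_assoc, Geo.sk, Finset.sum_mul]
    refine Finset.sum_le_sum fun l hl => ?_
    have hlk : l ≤ k := Nat.lt_succ_iff.1 (Finset.mem_range.1 hl)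
    obtain ⟨hm, hma⟩ := hB.defect_iterate_smooth S ht htS (k - l) hb ha
    have e : (G.defect S t)^[k] b = (G.defect S t)^[l] ((G.defect S t)^[k - l] b) := by
      rw [← Function.iterate_add_apply, Nat.add_sub_cancel' hlk]
    have hsk : t ^ k * G.hsum k b ≤ (t / s) ^ k * G.sk k s b := by
      rw [div_pow, div_mul_eq_mul_div, le_div_iff₀ (pow_pos hs k), mul_assoc]
      refine mul_le_mul_of_nonneg_left ?_ (by positivity)
      rw [mul_comm]
      exact G.hsum_le_sk k hs hs1 b
    calc t ^ l * G.hn l ((G.defect S t)^[k] b)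
        ≤ t ^ l * (C1 l * (C2 l * t ^ (k - l) * G.hsum k b)) := by
          refine mul_le_mul_of_nonneg_left ?_ (by positivity)
          rw [e]
          refine (G.hn_le_hsum le_rfl _).trans ((h1 l t ht htS _ hm hma).1.trans ?_)
          refine mul_le_mul_of_nonneg_left ?_ (hC1 l)
          have := (h2 l t ht htS b hb ha).2
          rwa [Nat.add_sub_cancel' hlk] at this
      _ = C1 l * C2 l * (t ^ k * G.hsum k b) := by
          rw [← pow_sub_mul_pow t hlk]
          ring
      _ ≤ C1 l * C2 l * ((t / s) ^ k * G.sk k s b) :=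
          mul_le_mul_of_nonneg_left hsk (mul_nonneg (hC1 l) (hC2 l))
      _ ≤ _ := by
          refine mul_le_mul_of_nonneg_right (by linarith [hC3 l]) ?_
          exact mul_nonneg (pow_nonneg (by positivity) _) (G.sk_nonneg k hs.le b)
  · have hs := ht.trans_le hts
    have h4 : G.hn 0 ((G.defect S t)^[i] b) ≤ C3 i * G.sk k s b := by
      refine (G.hn_le_hsum le_rfl _).trans ((h3 i t ht htS b hb ha).1.trans ?_)
      refine mul_le_mul_of_nonneg_left ?_ (hC3 i)
      simpa [Geo.hsum] using G.hn_zero_le_sk k hs.le b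
    refine h4.trans (mul_le_mul_of_nonneg_right ?_ (G.sk_nonneg k hs.le b))
    calc C3 i ≤ C1 i * C2 i + C3 i := by nlinarith [mul_nonneg (hC1 i) (hC2 i)]
      _ ≤ _ := Finset.single_le_sum (f := fun l => C1 l * C2 l + C3 l)
          (fun l _ => by have := hC1 l; have := hC2 l; have := hC3 l; positivity)
          (Finset.mem_range.2 (by omega))

end Vale.Agent.P204.Full
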