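import Vale.Agent.P204.Full.Scales.Dual

/-!
P204 scales: one step of the bootstrap, the partner on the anti-invariant part of a smoothed form.
-/

open scoped Manifold ContDiff Topology
open MeasureTheory Set

noncomputable section

namespace Vale.Agent.P204.Full

universe u

theorem sqrt_add_le' {a b : ℝ} (ha : 0 ≤ a) (hb : 0 ≤ b) :
    Real.sqrt (a + b) ≤ Real.sqrt a + Real.sqrt b := by
  rw [Real.sqrt_le_iff]
  refine ⟨by positivity, ?_⟩
  nlinarith [Real.mul_self_sqrt ha, Real.mul_self_sqrt hb, mul_nonneg (Real.sqrt_nonneg a) (Real.sqrt_nonneg b)]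

/-- Combining the bounds for the pieces. -/
theorem combine_bounds {c1 c2 c3 d s v q la le lf lb : ℝ} (hc1 : 0 ≤ c1) (hc2 : 0 ≤ c2) (hc3 : 0 ≤ c3)
    (hd : 0 ≤ d) (hs : 0 < s) (hv : 0 ≤ v) (hq : 0 ≤ q) (_hla0 : 0 ≤ la) (hle0 : 0 ≤ le) (hlf0 : 0 ≤ lf)
    (hlb0 : 0 ≤ lb) (hla : la ≤ c1 * (v / s)) (hle : le ≤ c2 * (s * q)) (hlf : lf ≤ c3 * (s * v))
    (hlb : lb ^ 2 ≤ d * (la * lf + la * le + (lf ^ 2 + le ^ 2))) :
    lb ≤ (Real.sqrt (d * (c1 * (c2 + c3))) + Real.sqrt d * (c2 + c3)) *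
      (Real.sqrt (v * (v + q)) + s * (v + q)) := by
  have hf : lf + le ≤ (c2 + c3) * (s * (v + q)) := by
    nlinarith [mul_nonneg (mul_nonneg hc2 hs.le) hv, mul_nonneg (mul_nonneg hc3 hs.le) hq]
  have h2 : la * (lf + le) ≤ c1 * (v / s) * ((c2 + c3) * (s * (v + q))) :=
    mul_le_mul hla hf (by positivity) (by positivity)
  have h3 : c1 * (v / s) * ((c2 + c3) * (s * (v + q))) = c1 * (c2 + c3) * (v * (v + q)) := by
    field_simp
  have h1 : la * lf + la * le + (lf ^ 2 + le ^ 2) ≤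
      c1 * (c2 + c3) * (v * (v + q)) + ((c2 + c3) * (s * (v + q))) ^ 2 := by
    nlinarith [pow_le_pow_left₀ (by positivity) hf 2, mul_nonneg hlf0 hle0]
  rw [← Real.sqrt_sq hlb0]
  refine (Real.sqrt_le_sqrt (hlb.trans (mul_le_mul_of_nonneg_left h1 hd))).trans ?_
  rw [mul_add d]
  refine (sqrt_add_le' (by positivity) (by positivity)).trans ?_
  rw [Real.sqrt_mul hd (((c2 + c3) * (s * (v + q))) ^ 2), Real.sqrt_sq (by positivity),
    ← mul_assoc d (c1 * (c2 + c3)), Real.sqrt_mul (by positivity) (v * (v + q))]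
  have g1 : 0 ≤ Real.sqrt (d * (c1 * (c2 + c3))) := Real.sqrt_nonneg _
  have g2 : 0 ≤ Real.sqrt d * (c2 + c3) := by positivity
  have g3 : 0 ≤ Real.sqrt (v * (v + q)) := Real.sqrt_nonneg _
  have g4 : 0 ≤ s * (v + q) := by positivity
  nlinarith [mul_nonneg g1 g4, mul_nonneg g2 g3]

variable {X : Type u} [TopologicalSpace X] [T2Space X] [CompactSpace X] [ChartedSpace R4 X]
  [IsManifold 𝓘(ℝ, R4) ∞ X] [MeasurableSpace X] [BorelSpace X] {G : Geo X}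

variable (hB : BaseFacts G)
include hB

omit [T2Space X] [CompactSpace X] [BorelSpace X] in
theorem BaseFacts.pair_add_left {θ η ζ : X → Bil} (hθ : Smooth2 θ) (hη : Smooth2 η) (hζ : Smooth2 ζ) :
    G.pair (θ + η) ζ = G.pair θ ζ + G.pair η ζ := by
  simp only [Geo.pair, Pi.add_apply, G.W_add_left]
  exact integral_add (hB.pair_integrable _ _ (hB.smooth_cont _ hθ) (hB.smooth_cont _ hζ))
    (hB.pair_integrable _ _ (hB.smooth_cont _ hη) (hB.smooth_cont _ hζ))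

omit [T2Space X] [CompactSpace X] [BorelSpace X] in
/-- The functional `θ ↦ P θ + Q (θ^{20})` and its two parts are controlled by Sobolev norms. -/
theorem BaseFacts.cur_bounds (hC : CurFacts G) (D : Pair G) :
    (∃ (N : ℕ) (C : ℝ), ∀ θ, Smooth2 θ → |D.P θ| ≤ C * G.hsum N θ) ∧
      ∃ (N : ℕ) (C : ℝ), ∀ θ, Smooth2 θ → |(D.Q.comp G.p20L) θ| ≤ C * G.hsum N θ := by
  constructor
  · obtain ⟨CP, hP⟩ := hC.bound
    obtain ⟨Cs, hs⟩ := hB.sobolev_nrm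
    have := D.finite_mu
    refine ⟨4, max CP 0 * (max Cs 0 * D.mu.real univ), fun θ hθ => ?_⟩
    have h1 : ∫ x, G.nrm2 θ x ∂D.mu ≤ max Cs 0 * G.hsum 4 θ * D.mu.real univ := by
      refine (integral_mono_of_nonneg (Filter.Eventually.of_forall (hB.nrm2_nonneg θ))
        (integrable_const (max Cs 0 * G.hsum 4 θ)) (Filter.Eventually.of_forall fun x => ?_)).trans
        (le_of_eq (by simp [mul_comm]))
      exact (hs θ hθ x).trans (mul_le_mul_of_nonneg_right (le_max_left _ _) (G.hsum_nonneg _ _))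
    calc |D.P θ| ≤ max CP 0 * ∫ x, G.nrm2 θ x ∂D.mu :=
          (hP D.toPosCur θ (hB.smooth_cont _ hθ)).trans
            (mul_le_mul_of_nonneg_right (le_max_left _ _) (integral_nonneg (hB.nrm2_nonneg θ)))
      _ ≤ max CP 0 * (max Cs 0 * G.hsum 4 θ * D.mu.real univ) :=
          mul_le_mul_of_nonneg_left h1 (le_max_right _ _)
      _ = _ := by ring
  · obtain ⟨N, CQ, hQ⟩ := D.Q_bound
    obtain ⟨Cp, hp⟩ := hB.p20_hsum N
    refine ⟨N, max CQ 0 * Cp, fun θ hθ => ?_⟩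
    have hb := hB.p20_smooth θ hθ
    calc |D.Q (G.p20 θ)| ≤ max CQ 0 * G.hsum N (G.p20 θ) :=
          (hQ _ hb.1 hb.2).trans (mul_le_mul_of_nonneg_right (le_max_left _ _) (G.hsum_nonneg _ _))
      _ ≤ max CQ 0 * (Cp * G.hsum N θ) := mul_le_mul_of_nonneg_left (hp θ hθ).1 (le_max_right _ _)
      _ = _ := by ring

omit [T2Space X] [CompactSpace X] [BorelSpace X] in
/-- Pointwise, the anti-invariant part is controlled by the wedge square and the invariant parts. -/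
theorem BaseFacts.anti_part_le (hP : PointFacts G) {FP FQ : X → Bil} (hFP : Smooth2 FP)
    (hFQ : Smooth2 FQ) (x : X) {CW Ω CA f : ℝ} (hCW : 0 ≤ CW) (hΩ : 0 ≤ Ω) (hCA : 0 ≤ CA)
    (hA' : ∀ b, G.AntiAt x b → G.nrmVal x b ^ 2 ≤ CA * G.W x b b)
    (hW : ∀ u w, IsAlt u → IsAlt w → |G.W x u w| ≤ CW * G.nrmVal x u * G.nrmVal x w)
    (hO : G.nrmVal x (G.omega x) ≤ Ω) (hf : 0 ≤ f)
    (hAf : G.PosAt x (G.p11 FP x + f • G.omega x)) :
    G.nrm2 (G.p20 (FP + FQ)) x ^ 2 ≤ CA * G.W x ((FP + FQ) x) ((FP + FQ) x) +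
      CA * (2 * CW * Ω + 2 * CW + 1) * (G.nrm2 (G.p11 FP) x * f +
        G.nrm2 (G.p11 FP) x * G.nrm2 (G.p11 FQ) x +
        (f * f + G.nrm2 (G.p11 FQ) x * G.nrm2 (G.p11 FQ) x)) := by
  rw [hB.nrm2_eq, hB.nrm2_eq (G.p11 FP), hB.nrm2_eq (G.p11 FQ)]
  set F := FP + FQ with hFdef
  have hF : Smooth2 F := hFP.add hFQ
  set A := G.p11 FP x with hA
  set E := G.p11 FQ x with hE
  set B := G.p20 F x with hBd
  have hAi : G.InvAt x A := hP.inv11_at x _ (hFP.1 x)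
  have hEi : G.InvAt x E := hP.inv11_at x _ (hFQ.1 x)
  have hBa : G.AntiAt x B := hP.anti20_at x _ (hF.1 x)
  have hsplit : F x = (A + E) + B := by
    conv_lhs => rw [← hP.split x (F x)]
    rw [show inv11 (G.J x) (F x) = A + E from inv11_add (G.J x) (FP x) (FQ x)]
    rfl
  have hsum : G.InvAt x (A + E) := ⟨hAi.1.add hEi.1, by rw [pullBil_add, hAi.2, hEi.2]⟩
  have hcr := hP.W_inv_anti x _ _ hsum hBa
  have hexp : G.W x (F x) (F x) = G.W x A A + 2 * G.W x A E + G.W x E E + G.W x B B := by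
    rw [hsplit, G.W_add_left x (A + E), G.W_add_right x (A + E), G.W_add_right x B,
      hP.W_symm x B (A + E), hcr, G.W_add_left, G.W_add_right, G.W_add_right, hP.W_symm x E A]
    ring
  have hp0 := hP.pos_W x _ _ hAf hAf
  rw [G.W_add_left, G.W_add_right, G.W_add_right, G.W_smul_left, G.W_smul_left, G.W_smul_right,
    G.W_smul_right, hP.W_omega, hP.W_symm x (G.omega x) A] at hp0
  set a := G.nrmVal x A
  set e := G.nrmVal x E
  have ha0 : 0 ≤ a := G.nrmVal_nn _ _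
  have he0 : 0 ≤ e := G.nrmVal_nn _ _
  have hAw : |G.W x A (G.omega x)| ≤ CW * a * Ω :=
    (hW _ _ hAi.1 (hP.omega_at x).1.1).trans (mul_le_mul_of_nonneg_left hO (mul_nonneg hCW ha0))
  have hAE := hW _ _ hAi.1 hEi.1
  have hEE := hW _ _ hEi.1 hEi.1
  have hlow : G.W x B B ≤ G.W x (F x) (F x) +
      (2 * CW * Ω + 2 * CW + 1) * (a * f + a * e + (f * f + e * e)) := by
    have hCWΩ : 0 ≤ CW * Ω := mul_nonneg hCW hΩ
    nlinarith [mul_le_mul_of_nonneg_left ((le_abs_self _).trans hAw) hf, neg_le_of_abs_le hAE,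
      neg_le_of_abs_le hEE, mul_nonneg hCWΩ (mul_nonneg ha0 he0), mul_nonneg hCWΩ (mul_self_nonneg f),
      mul_nonneg hCWΩ (mul_self_nonneg e), mul_nonneg hCW (mul_nonneg ha0 hf),
      mul_nonneg hCW (mul_self_nonneg f), mul_nonneg hCW (mul_self_nonneg e), mul_nonneg ha0 hf,
      mul_nonneg ha0 he0]
  calc G.nrmVal x B ^ 2 ≤ CA * G.W x B B := hA' _ hBa
    _ ≤ CA * (G.W x (F x) (F x) +
        (2 * CW * Ω + 2 * CW + 1) * (a * f + a * e + (f * f + e * e))) :=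
      mul_le_mul_of_nonneg_left hlow hCA
    _ = _ := by ring

omit [T2Space X] [CompactSpace X] [BorelSpace X] hB in
/-- Duality with the invariant test form. -/
theorem Geo.dual_l2 {CI c : ℝ} (hCI : 0 ≤ CI) (hc : 0 ≤ c) {F : X → Bil} (hF : Smooth2 F)
    (hit : ∀ F, Smooth2 F → ∃ θ, Smooth2 θ ∧ G.Inv θ ∧ G.l2 (G.p11 F) ^ 2 ≤ CI * G.pair F θ ∧
      G.l2 θ ≤ CI * G.l2 (G.p11 F))
    (h : ∀ θ, Smooth2 θ → G.Inv θ → G.pair F θ ≤ c * G.l2 θ) : G.l2 (G.p11 F) ≤ CI * CI * c := by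
  obtain ⟨θ, hθ, hθi, h1, h2⟩ := hit F hF
  refine le_of_sq_le_mul_self (by positivity) ?_
  calc G.l2 (G.p11 F) ^ 2 ≤ CI * (c * G.l2 θ) := h1.trans (mul_le_mul_of_nonneg_left (h θ hθ hθi) hCI)
    _ ≤ CI * (c * (CI * G.l2 (G.p11 F))) :=
      mul_le_mul_of_nonneg_left (mul_le_mul_of_nonneg_left h2 hc) hCI
    _ = _ := by ring

/-- The size of the almost positivity defect. -/
theorem BaseFacts.mavg_l2 : ∃ C : ℝ, 0 ≤ C ∧ ∀ (D : PosCur G) (s r : ℝ), 0 < s → s ≤ r → r ≤ 1 →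
    Real.sqrt (∫ z, G.mavg D.mu r z ^ 2 ∂G.vol) ≤
      C * Real.sqrt (D.mu.real univ) * (Real.sqrt (G.nu D.mu s) / s) := by
  obtain ⟨CM, hCM0, hM⟩ := hB.mavg_sq
  refine ⟨Real.sqrt CM, Real.sqrt_nonneg _, fun D s r hs hsr hr1 => ?_⟩
  have := D.finite_mu
  have h4 : ∫ z, G.mavg D.mu r z ^ 2 ∂G.vol ≤ CM * D.mu.real univ * (G.nu D.mu s / s ^ 2) := by
    refine (hM D.mu r (hs.trans_le hsr) hr1).trans ?_
    rw [mul_div_assoc]
    refine mul_le_mul_of_nonneg_left ?_ (mul_nonneg hCM0 measureReal_nonneg)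
    exact div_le_div₀ (G.nu_nonneg _ _) (G.nu_anti D.mu hs hsr) (by positivity)
      (pow_le_pow_left₀ hs.le hsr 2)
  refine (Real.sqrt_le_sqrt h4).trans (le_of_eq ?_)
  rw [Real.sqrt_mul (mul_nonneg hCM0 measureReal_nonneg), Real.sqrt_mul hCM0,
    Real.sqrt_div' _ (by positivity), Real.sqrt_sq hs.le]

omit [T2Space X] in
/-- Integrating the pointwise inequality. -/
theorem BaseFacts.l2_sq_le {F A E B : X → Bil} {f : X → ℝ} {CA d : ℝ} (hd : 0 ≤ d) (hF : Smooth2 F)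
    (hA : Smooth2 A) (hE : Smooth2 E) (hBs : Smooth2 B) (hfm : BddMeas f) (hFF : G.pair F F = 0)
    (hpt : ∀ x, G.nrm2 B x ^ 2 ≤ CA * G.W x (F x) (F x) +
      d * (G.nrm2 A x * f x + G.nrm2 A x * G.nrm2 E x + (f x * f x + G.nrm2 E x * G.nrm2 E x))) :
    G.l2 B ^ 2 ≤ d * (G.l2 A * Real.sqrt (∫ x, f x ^ 2 ∂G.vol) + G.l2 A * G.l2 E +
      (Real.sqrt (∫ x, f x ^ 2 ∂G.vol) ^ 2 + G.l2 E ^ 2)) := by
  have := hB.vol_finite
  have ham := hB.bddMeas_nrm2 (hB.smooth_cont _ hA)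
  have hem := hB.bddMeas_nrm2 (hB.smooth_cont _ hE)
  have hbm := hB.bddMeas_nrm2 (hB.smooth_cont _ hBs)
  have hsq : ∀ g : X → ℝ, ∫ x, g x * g x ∂G.vol = Real.sqrt (∫ x, g x ^ 2 ∂G.vol) ^ 2 := fun g => by
    rw [Real.sq_sqrt (integral_nonneg fun _ => sq_nonneg _)]
    simp [sq]
  have iW := hB.pair_integrable _ _ (hB.smooth_cont _ hF) (hB.smooth_cont _ hF)
  have i1 := (((ham.mul hfm).add (ham.mul hem)).add ((hfm.mul hfm).add (hem.mul hem))).integrable G.vol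
  rw [G.l2_sq]
  refine (integral_mono (by simpa [sq] using (hbm.mul hbm).integrable G.vol)
    ((iW.const_mul CA).add (i1.const_mul d)) hpt).trans ?_
  simp only [Pi.add_apply]
  rw [integral_add (iW.const_mul CA) (i1.const_mul d), integral_const_mul, integral_const_mul,
    show ∫ x, G.W x (F x) (F x) ∂G.vol = 0 from hFF, mul_zero, zero_add]
  refine mul_le_mul_of_nonneg_left ?_ hd
  rw [integral_add (((ham.mul hfm).add (ham.mul hem)).integrable _)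
    (((hfm.mul hfm).add (hem.mul hem)).integrable _),
    integral_add ((ham.mul hfm).integrable _) ((ham.mul hem).integrable _),
    integral_add ((hfm.mul hfm).integrable _) ((hem.mul hem).integrable _), hsq f, hsq (G.nrm2 E)]
  exact add_le_add (add_le_add (integral_mul_le_sqrt _ ham hfm) (integral_mul_le_sqrt _ ham hem))
    le_rfl

omit [T2Space X] in
/-- Pairing with an anti-invariant form only sees the anti-invariant part. -/
theorem BaseFacts.pair_anti_le (hP : PointFacts G) {F b : X → Bil} (hF : Smooth2 F) (hb : Smooth2 b)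
    (hbanti : G.Anti b) {CW : ℝ} (hCW : 0 ≤ CW)
    (hW : ∀ x u w, IsAlt u → IsAlt w → |G.W x u w| ≤ CW * G.nrmVal x u * G.nrmVal x w) :
    |G.pair F b| ≤ CW * (G.l2 (G.p20 F) * G.l2 b) := by
  have := hB.vol_finite
  have hbn := hB.bddMeas_nrm2 (hB.smooth_cont _ hb)
  have hbm := hB.bddMeas_nrm2 (hB.smooth_cont _ (hB.p20_smooth _ hF).1)
  have hle : ∀ x, |G.W x (F x) (b x)| ≤ CW * (G.nrm2 (G.p20 F) x * G.nrm2 b x) := fun x => by
    have hba := G.antiAt_of_anti hbanti hb x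
    conv_lhs => rw [← hP.split x (F x)]
    rw [G.W_add_left, hP.W_inv_anti x _ _ (hP.inv11_at x _ (hF.1 x)) hba, zero_add,
      hB.nrm2_eq, hB.nrm2_eq b x, ← mul_assoc]
    exact hW x _ _ (hP.anti20_at x _ (hF.1 x)).1 hba.1
  rw [Geo.pair]
  refine (abs_integral_le_integral_abs).trans ?_
  refine (integral_mono ((hB.pair_integrable _ _ (hB.smooth_cont _ hF) (hB.smooth_cont _ hb)).abs)
    (((hbm.mul hbn).integrable _).const_mul CW) hle).trans ?_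
  rw [integral_const_mul]
  exact mul_le_mul_of_nonneg_left (integral_mul_le_sqrt _ hbm hbn) hCW

omit [T2Space X] [CompactSpace X] [MeasurableSpace X] [BorelSpace X] hB in
theorem PointFacts.W_bound_nonneg (hP : PointFacts G) : ∃ C, 0 ≤ C ∧
    ∀ x u w, IsAlt u → IsAlt w → |G.W x u w| ≤ C * G.nrmVal x u * G.nrmVal x w := by
  obtain ⟨C, hC⟩ := hP.W_bound
  exact ⟨max C 0, le_max_right _ _, fun x u w hu hw => (hC x u w hu hw).trans
    (mul_le_mul_of_nonneg_right (mul_le_mul_of_nonneg_right (le_max_left _ _)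
      (G.nrmVal_nn _ _)) (G.nrmVal_nn _ _))⟩

omit [T2Space X] in
theorem BaseFacts.omega_bound : ∃ Ω : ℝ, 0 ≤ Ω ∧ ∀ x, G.nrmVal x (G.omega x) ≤ Ω := by
  obtain ⟨Ω, h⟩ := (hB.bddMeas_nrm2 (hB.smooth_cont _ G.omega_smooth)).bdd
  exact ⟨|Ω|, abs_nonneg _, fun x => by
    rw [← hB.nrm2_eq]; exact (le_abs_self _).trans ((h x).trans (le_abs_self _))⟩

omit [T2Space X] [CompactSpace X] [BorelSpace X] in
theorem BaseFacts.pair_self_zero (D : Pair G) (S : Smoother G) {s : ℝ} (hs : 0 < s) (hsS : s ≤ S.s0)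
    {F : X → Bil} (hF : Smooth2 F)
    (hFe : ∀ θ, Smooth2 θ → G.pair F θ = D.P (S.ST s θ) + D.Q (G.p20 (S.ST s θ))) :
    G.pair F F = 0 := by
  have hFc : Closed2 F := by
    refine hB.closed_of_pair _ hF fun α hα => ?_
    rw [hFe _ (hB.exact_closed α hα).1]
    obtain ⟨β, hβ, hβe⟩ := S.exact s hs hsS α hα
    rw [hβe]
    exact D.kills _ (hB.exact_closed β hβ)
  rw [hFe F hF]
  exact D.kills _ (S.closed s hs hsS F hFc)

omit [T2Space X] [CompactSpace X] [BorelSpace X] hB in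
theorem Geo.defect_l2 (D : PosCur G) {Cf CM s r : ℝ} (hCf : 0 ≤ Cf) (hs : 0 < s)
    (h : Real.sqrt (∫ z, G.mavg D.mu r z ^ 2 ∂G.vol) ≤
      CM * Real.sqrt (D.mu.real univ) * (Real.sqrt (G.nu D.mu s) / s)) :
    Real.sqrt (∫ x, (Cf * s ^ 2 * G.mavg D.mu r x) ^ 2 ∂G.vol) ≤
      Cf * (CM * Real.sqrt (D.mu.real univ)) * (s * Real.sqrt (G.nu D.mu s)) := by
  have e : (fun x => (Cf * s ^ 2 * G.mavg D.mu r x) ^ 2) =
      fun x => (Cf * s ^ 2) ^ 2 * G.mavg D.mu r x ^ 2 := funext fun x => mul_pow _ _ _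
  rw [e, integral_const_mul, Real.sqrt_mul (sq_nonneg _), Real.sqrt_sq (by positivity)]
  refine (mul_le_mul_of_nonneg_left h (by positivity)).trans (le_of_eq ?_)
  field_simp

/-- The invariant part of the smoothed current in mean square. -/
theorem BaseFacts.cur_part_l2 (hP : PointFacts G) (hC : CurFacts G) (S : Smoother G) :
    ∃ C : ℝ, 0 ≤ C ∧ ∀ (D : PosCur G) (s : ℝ), 0 < s → s ≤ S.s0 → S.K * s ≤ 1 →
      ∀ FP, Smooth2 FP → (∀ θ, Smooth2 θ → G.pair FP θ = D.P (S.ST s θ)) →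
        G.l2 (G.p11 FP) ≤ C * Real.sqrt (D.mu.real univ) * (Real.sqrt (G.nu D.mu s) / s) := by
  obtain ⟨Cc, hCc0, hcur⟩ := hB.cur_pt hC
  obtain ⟨CI, hCI0, hit⟩ := hB.inv_test hP
  obtain ⟨Cb', hb'⟩ := S.pt_bound
  refine ⟨CI * CI * (Cc * max Cb' 0), by positivity, fun D s hs hsS hKs1 FP hFP hFPe => ?_⟩
  refine (G.dual_l2 (c := Cc * max Cb' 0 * Real.sqrt (D.mu.real univ) *
    (Real.sqrt (G.nu D.mu s) / s)) hCI0 (by positivity) hFP hit fun θ hθ _ => ?_).trans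
    (le_of_eq (by ring))
  rw [hFPe θ hθ]
  exact (le_abs_self _).trans
    (hcur D s (S.K * s) hs (le_mul_of_one_le_left hs.le S.K_one) hKs1 _ θ
      (hB.smooth_cont _ (S.smooth s hs hsS θ hθ)) (hB.smooth_cont _ hθ) _ (le_max_right _ _)
      fun x => (hb' s hs hsS θ hθ x).trans
        (mul_le_mul_of_nonneg_right (le_max_left _ _) (avg_nonneg _ (hB.nrm2_nonneg θ) x)))

omit [T2Space X] in
/-- The invariant part coming from the partner in mean square. -/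
theorem BaseFacts.partner_part_l2 (hP : PointFacts G) (D : Pair G) (S : Smoother G) (k : ℕ) :
    ∃ C : ℝ, 0 ≤ C ∧ ∀ s, 0 < s → s ≤ S.s0 → ∀ q, 0 ≤ q →
      (∀ b, Smooth2 b → G.Anti b → |D.Q b| ≤ q * G.sk k s b) →
      ∀ FQ, Smooth2 FQ → (∀ θ, Smooth2 θ → G.pair FQ θ = D.Q (G.p20 (S.ST s θ))) →
        G.l2 (G.p11 FQ) ≤ C * (s * q) := by
  obtain ⟨CI, hCI0, hit⟩ := hB.inv_test hP
  obtain ⟨Cg', hg'⟩ := S.sk_gain k
  refine ⟨CI * CI * max Cg' 0, by positivity, fun s hs hsS q hq hQ FQ hFQ hFQe => ?_⟩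
  refine (G.dual_l2 (c := max Cg' 0 * (s * q)) hCI0 (by positivity) hFQ hit
    fun θ hθ hθi => ?_).trans (le_of_eq (by ring))
  rw [hFQe θ hθ]
  have hSθ := hB.p20_smooth _ (S.smooth s hs hsS θ hθ)
  refine (le_abs_self _).trans ((hQ _ hSθ.1 hSθ.2).trans ?_)
  refine (mul_le_mul_of_nonneg_left ((hg' s hs hsS θ hθ hθi).trans (mul_le_mul_of_nonneg_right
    (mul_le_mul_of_nonneg_right (le_max_left Cg' 0) hs.le) (G.l2_nonneg θ))) hq).trans (le_of_eq ?_)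
  ring

/-- The duality fields: a closed field whose anti-invariant part is small. -/
theorem BaseFacts.dual_field (hP : PointFacts G) (hC : CurFacts G) (D : Pair G) (S : Smoother G)
    (k : ℕ) : ∃ C s1 : ℝ, 0 ≤ C ∧ 0 < s1 ∧ s1 ≤ S.s0 ∧ S.K * s1 ≤ 1 ∧ ∀ s, 0 < s → s ≤ s1 →
      ∀ q, 0 ≤ q → (∀ b, Smooth2 b → G.Anti b → |D.Q b| ≤ q * G.sk k s b) →
        ∃ F, Smooth2 F ∧ (∀ θ, Smooth2 θ →
          G.pair F θ = D.P (S.ST s θ) + D.Q (G.p20 (S.ST s θ))) ∧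
          G.l2 (G.p20 F) ≤ C * (Real.sqrt (Real.sqrt (G.nu D.mu s) * (Real.sqrt (G.nu D.mu s) + q)) +
            s * (Real.sqrt (G.nu D.mu s) + q)) := by
  obtain ⟨c1, hc10, hlA⟩ := hB.cur_part_l2 hP hC S
  obtain ⟨c2, hc20, hlE⟩ := hB.partner_part_l2 hP D S k
  obtain ⟨CA, hCApos, hA'⟩ := hP.W_anti
  have hCA0 := hCApos.le
  obtain ⟨CM, hCM0, hM⟩ := hB.mavg_l2
  obtain ⟨Cf, K', s1p, hCf0, hK'1, hs1p0, hs1pS, hK's, hposA⟩ := hB.cur_pos hP hC S
  obtain ⟨⟨NP, BP, hBP⟩, NQ, BQ, hBQ⟩ := hB.cur_bounds hC D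
  obtain ⟨CW, hCW0, hW⟩ := hP.W_bound_nonneg
  obtain ⟨Ω, hΩ0, hΩ⟩ := hB.omega_bound
  have hKpos : 0 < S.K := by linarith [S.K_one]
  have h2C : 0 ≤ 2 * CW * Ω + 2 * CW + 1 := by positivity
  refine ⟨Real.sqrt (CA * (2 * CW * Ω + 2 * CW + 1) * (c1 * Real.sqrt (D.mu.real univ) *
        (c2 + Cf * (CM * Real.sqrt (D.mu.real univ))))) +
      Real.sqrt (CA * (2 * CW * Ω + 2 * CW + 1)) * (c2 + Cf * (CM * Real.sqrt (D.mu.real univ))),
    min s1p (1 / S.K), by positivity, lt_min hs1p0 (div_pos one_pos hKpos),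
    (min_le_left _ _).trans hs1pS, ?_, ?_⟩
  · exact (mul_le_mul_of_nonneg_left (min_le_right _ _) hKpos.le).trans
      (le_of_eq (mul_one_div_cancel hKpos.ne'))
  intro s hs hs1 q hq hQ
  have := D.finite_mu
  have hsp : s ≤ s1p := hs1.trans (min_le_left _ _)
  have hsS : s ≤ S.s0 := hsp.trans hs1pS
  have hKs1 : S.K * s ≤ 1 :=
    (mul_le_mul_of_nonneg_left (hs1.trans (min_le_right _ _)) hKpos.le).trans
      (le_of_eq (mul_one_div_cancel hKpos.ne'))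
  have hsK's : s ≤ K' * s := le_mul_of_one_le_left hs.le hK'1
  have hK's1 : K' * s ≤ 1 := (mul_le_mul_of_nonneg_left hsp (by linarith)).trans hK's
  obtain ⟨FP, hFP, hFPe⟩ := S.transpose s hs hsS D.P ⟨NP, BP, hBP⟩
  obtain ⟨FQ, hFQ, hFQe⟩ := S.transpose s hs hsS (D.Q.comp G.p20L) ⟨NQ, BQ, hBQ⟩
  have hF : Smooth2 (FP + FQ) := hFP.add hFQ
  have hFe : ∀ θ, Smooth2 θ →
      G.pair (FP + FQ) θ = D.P (S.ST s θ) + D.Q (G.p20 (S.ST s θ)) := fun θ hθ => by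
    rw [hB.pair_add_left hFP hFQ hθ, hFPe θ hθ, hFQe θ hθ]
    rfl
  refine ⟨FP + FQ, hF, hFe, ?_⟩
  have hlf := G.defect_l2 D.toPosCur hCf0 hs (hM D.toPosCur s _ hs hsK's hK's1)
  have hlB := hB.l2_sq_le (CA := CA) (d := CA * (2 * CW * Ω + 2 * CW + 1))
    (f := fun x => Cf * s ^ 2 * G.mavg D.mu (K' * s) x) (mul_nonneg hCA0 h2C) hF
    (hB.p11_smooth _ hFP).1 (hB.p11_smooth _ hFQ).1 (hB.p20_smooth _ hF).1
    ((hB.bddMeas_mavg D.mu _).const_mul _) (hB.pair_self_zero D S hs hsS hF hFe)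
    fun x => hB.anti_part_le hP hFP hFQ x hCW0 hΩ0 hCA0 (hA' x) (hW x) (hΩ x)
      (mul_nonneg (mul_nonneg hCf0 (sq_nonneg s)) (mavg_nonneg _ _ x))
      (hposA D.toPosCur s hs hsp FP hFP hFPe x)
  exact combine_bounds (mul_nonneg hc10 (Real.sqrt_nonneg _)) hc20
    (mul_nonneg hCf0 (mul_nonneg hCM0 (Real.sqrt_nonneg _))) (mul_nonneg hCA0 h2C) hs
    (Real.sqrt_nonneg _) hq (G.l2_nonneg _) (G.l2_nonneg _) (Real.sqrt_nonneg _) (G.l2_nonneg _)
    (hlA D.toPosCur s hs hsS hKs1 FP hFP hFPe) (hlE s hs hsS q hq hQ FQ hFQ hFQe) hlf hlB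

/-- One step: the partner on the anti-invariant part of a smoothed anti-invariant form. -/
theorem BaseFacts.scale_step (hP : PointFacts G) (hC : CurFacts G) (D : Pair G) (S : Smoother G)
    (k : ℕ) : ∃ C s1 : ℝ, 0 ≤ C ∧ 0 < s1 ∧ s1 ≤ S.s0 ∧ ∀ s, 0 < s → s ≤ s1 → ∀ q, 0 ≤ q →
      (∀ b, Smooth2 b → G.Anti b → |D.Q b| ≤ q * G.sk k s b) →
        ∀ b, Smooth2 b → G.Anti b → |D.Q (G.p20 (S.ST s b))| ≤
          C * (Real.sqrt (Real.sqrt (G.nu D.mu s) * (Real.sqrt (G.nu D.mu s) + q)) +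
            s * (Real.sqrt (G.nu D.mu s) + q) + Real.sqrt (G.nu D.mu s)) * G.l2 b := by
  obtain ⟨c5, s1, hc50, hs10, hs1S, hKs, hfield⟩ := hB.dual_field hP hC D S k
  obtain ⟨Cc, hCc0, hcur⟩ := hB.cur_pt hC
  obtain ⟨CW, hCW0, hW⟩ := hP.W_bound_nonneg
  obtain ⟨Ca', ha'⟩ := S.pt_anti
  refine ⟨CW * c5 + Cc * max Ca' 0 * Real.sqrt (D.mu.real univ), s1, by positivity, hs10, hs1S, ?_⟩
  intro s hs hs1 q hq hQ b hb hbanti
  obtain ⟨F, hF, hFe, hBb⟩ := hfield s hs hs1 q hq hQ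
  have hsS := hs1.trans hs1S
  have hSb := S.smooth s hs hsS b hb
  have hQb : D.Q (G.p20 (S.ST s b)) = G.pair F b - D.P (S.ST s b) := by
    rw [hFe b hb]; ring
  have hPb : |D.P (S.ST s b)| ≤ Cc * max Ca' 0 * Real.sqrt (D.mu.real univ) *
      Real.sqrt (G.nu D.mu s) * G.l2 b := by
    rw [hC.via_inv D.toPosCur _ (hB.smooth_cont _ hSb)]
    refine (hcur D.toPosCur s (S.K * s) hs (le_mul_of_one_le_left hs.le S.K_one)
      ((mul_le_mul_of_nonneg_left hs1 (by linarith [S.K_one])).trans hKs) _ b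
      (hB.smooth_cont _ (hB.p11_smooth _ hSb).1) (hB.smooth_cont _ hb) (max Ca' 0 * s)
      (mul_nonneg (le_max_right _ _) hs.le) fun x => (ha' s hs hsS b hb hbanti x).trans
        (mul_le_mul_of_nonneg_right (mul_le_mul_of_nonneg_right (le_max_left _ _) hs.le)
          (avg_nonneg _ (hB.nrm2_nonneg b) x))).trans (le_of_eq ?_)
    field_simp
  have hFb := hB.pair_anti_le hP hF hb hbanti hCW0 hW
  rw [hQb]
  refine (abs_sub _ _).trans ((add_le_add (hFb.trans (mul_le_mul_of_nonneg_left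
    (mul_le_mul_of_nonneg_right hBb (G.l2_nonneg b)) hCW0)) hPb).trans ?_)
  have g0 := G.l2_nonneg b
  have hv0 : 0 ≤ Real.sqrt (G.nu D.mu s) := Real.sqrt_nonneg _
  have g3 : 0 ≤ Real.sqrt (Real.sqrt (G.nu D.mu s) * (Real.sqrt (G.nu D.mu s) + q)) +
      s * (Real.sqrt (G.nu D.mu s) + q) := by positivity
  have g5 : 0 ≤ CW * c5 := mul_nonneg hCW0 hc50
  have g6 : 0 ≤ Cc * max Ca' 0 * Real.sqrt (D.mu.real univ) := by positivity
  nlinarith [mul_nonneg (mul_nonneg g5 hv0) g0, mul_nonneg (mul_nonneg g6 g3) g0]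

end Vale.Agent.P204.Full
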